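import Crest.Agent.X212.Cys97.Defs
import Crest.Agent.X212.Ten12.Lft

-- ▼ part X212/Cys97/Lo
section

/-!
# Row 212, CYC-SM (helper97): the resolvent on all levels of a scale; weighted and unweighted
-/

set_option autoImplicit false
set_option linter.unusedSectionVars false
set_option maxSynthPendingDepth 3
noncomputable section
open scoped Manifold ContDiff Topology InnerProductSpace BoundedContinuousFunction
open MeasureTheory Set Function Filter

namespace Crest.Agent.X212.Cys97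
open An Sob92 Prm93 Wz78 Mon62 Cyc79 Ten12
open Ell97 (UB)
open Nk89 (WtP wm)

variable {E : Type} [NormedAddCommGroup E] [NormedSpace ℝ E] [FiniteDimensional ℝ E]
  [MeasurableSpace E] [BorelSpace E]
  {HM : Type} [TopologicalSpace HM] {I : ModelWithCorners ℝ E HM} [I.Boundaryless]
  {M : Type} [TopologicalSpace M] [ChartedSpace HM M] [IsManifold I ∞ M]
  [MeasurableSpace M] [T2Space M] [BorelSpace M] [SecondCountableTopology M] {ι : Type} [Fintype ι]
  {V W : Type} [NormedAddCommGroup V] [InnerProductSpace ℝ V] [CompleteSpace V]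
  [NormedAddCommGroup W] [InnerProductSpace ℝ W] [CompleteSpace W]
  {P P' F : Fr I M ι} {A : ι → M → V →L[ℝ] V} {u v s : M → V} {k l : ℕ}

theorem is_sum {α : Type*} (t : Finset α) {x : α → HT P.toPre V l} {u : α → M → V}
    (h : ∀ a ∈ t, Is P.toPre l _ (x a) (u a)) :
    Is P.toPre l _ (∑ a ∈ t, x a) fun z => ∑ a ∈ t, u a z := by
  classical
  induction t using Finset.induction_on with
  | empty => simp only [Finset.sum_empty]; exact Is.zero
  | insert a t ha ih =>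
    simp only [Finset.sum_insert ha]
    exact (h a (by simp)).add (ih fun b hb => h b (by simp [hb]))

theorem is_eq' {x : HT P.toPre V l} (h : Is P.toPre l _ x u) (e : ∀ z, v z = u z) :
    Is P.toPre l _ x v := funext e ▸ h

theorem is_neg {x : HT P.toPre V l} (h : Is P.toPre l _ x u) : Is P.toPre l _ (-x) fun z => -u z :=
  is_eq' (neg_one_smul ℝ x ▸ h.smul (-1)) fun z => by simp

/-- smooth functions which lie in all levels -/
def Al (P : Fr I M ι) (u : M → V) : Prop := Sm I u ∧ ∀ k, ∃ x : HT P.toPre V k, Is P.toPre k _ x u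

theorem al_sec (u : Sec I (triv M V)) : Al P u.1 := ⟨u.2.1, fun _ => ⟨_, Is.toH u⟩⟩

theorem Al.add (h : Al P u) (h' : Al P v) : Al P fun z => u z + v z :=
  ⟨h.1.add h'.1, fun k => let ⟨_, a⟩ := h.2 k; let ⟨_, b⟩ := h'.2 k; ⟨_, a.add b⟩⟩

theorem Al.sub (h : Al P u) (h' : Al P v) : Al P fun z => u z - v z :=
  ⟨h.1.sub h'.1, fun k => let ⟨_, a⟩ := h.2 k; let ⟨_, b⟩ := h'.2 k; ⟨_, a.sub b⟩⟩

theorem Al.app (h : Al P u) {T : M → V →L[ℝ] W} (hT : P.Cb T) : Al P fun z => T z (u z) :=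
  ⟨(cb_sm hT).clm_apply h.1, fun k => let ⟨_, a⟩ := h.2 k; ⟨_, a.mulH hT (Maps.triv _)⟩⟩

theorem Al.smul (h : Al P u) {f : M → ℝ} (hf : P.Cb f) : Al P fun z => f z • u z :=
  ⟨(cb_sm hf).smul h.1, fun k => let ⟨_, a⟩ := h.2 k; ⟨_, a.smulH hf⟩⟩

theorem Al.D (h : Al P u) (a : ι) : Al P (P.D a u) :=
  ⟨P.sm_D h.1 a, fun k => let ⟨_, b⟩ := h.2 (k + 1); ⟨_, b.DH h.1 a⟩⟩

theorem Al.Do (h : Al P u) : ∀ a : Option ι, Al P (Do P.toPre a u)
  | none => h
  | some a => h.D a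

theorem Al.cb {S : ℝ} (hS : Sup P.toPre S) (h : Al P u) : P.Cb u := by
  obtain ⟨x, hx⟩ := h.2 4
  rw [← hx.val_eq hS le_rfl h.1.continuous]
  exact Cb_val hS le_rfl fun j hj => let ⟨y, hy⟩ := h.2 j; ⟨y, (hy.incl hj).unique hx⟩

variable (P F A) in
/-- the frame `F` and the connection `A` act on the scale of `P` -/
structure Ac : Prop where
  sup : ∃ S, Sup P.toPre S
  mix : ∃ S, Mix P.toPre F.toPre S ∧ ∀ a b, P.Cb (S a b)
  dv : ∀ c, P.Cb (F.dv c)
  cb : ∀ c, P.Cb (A c)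

theorem cm_eq (hA : ∀ c, Sm I (A c)) {χ : M → ℝ} (hχ : Sm I χ) (hu : Sm I u) (z : M) :
    F.op (cmS F V χ) (cmB F A χ) u z = -∑ c, (F.D c χ z • nab I F.e A c u z +
      (nab I F.e A c (fun y => F.D c χ y • u y) z + F.dv c z • F.D c χ z • u z)) := by
  have e : ∀ c, Sob92.dv I (F.e c) (fun y => F.D c χ y • u y) z =
      F.D c (F.D c χ) z • u z + F.D c χ z • F.D c u z := fun c =>
    Sob92.dv_smul ((F.sm_D hχ c).mdifferentiableAt (by simp)) (hu.mdifferentiableAt (by simp))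
  simp only [Pre.op, cmS, cmB, nab, e, _root_.sum_apply, sub_apply, smul_apply,
    ContinuousLinearMap.id_apply, ← Finset.sum_add_distrib, ← Finset.sum_neg_distrib, map_smul]
  refine Finset.sum_congr rfl fun c _ => ?_
  simp only [← Pre.D_def]
  module

namespace Ac
variable (h : Ac P F A)
include h

theorem sm (c : ι) : Sm I (A c) := cb_sm (h.cb c)

theorem act : Act V P.toPre F := let ⟨_, a, b⟩ := h.mix; act_mix a b h.dv

theorem cbF {N : Type} [NormedAddCommGroup N] [NormedSpace ℝ N] {f : M → N} (hf : P.Cb f) :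
    F.Cb f := let ⟨_, a, b⟩ := h.mix; a.Cb b hf

theorem cbD {N : Type} [NormedAddCommGroup N] [NormedSpace ℝ N] {f : M → N} (hf : P.Cb f) (c : ι) :
    P.Cb (F.D c f) := by
  obtain ⟨_, a, b⟩ := h.mix
  rw [a.D]
  exact Cb_sum _ fun d _ => Cb_smul (b c d) (Cb_D hf d)

theorem rep (l : ℕ) : P.Rep (Ql P.toPre F A l) fun u x => u x + lap I F.e F.dv A u x :=
  rep_QQ h.act ⟨fun c => rep_mulH (h.cb c) (Maps.triv _), fun c => rep_mulH (h.cb c) (Maps.triv _)⟩

theorem is_Dt {x : HT P.toPre V (l + 1)} (hx : Is P.toPre (l + 1) _ x u) (hu : Sm I u) (c : ι) :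
    Is P.toPre l _ (Dt V P.toPre F l c x) (F.D c u) := by
  obtain ⟨S, a, b⟩ := h.mix
  rw [Dt_eq a b, a.D, _root_.sum_apply]
  exact is_sum _ fun d _ => (hx.DH hu d).smulH (b c d)

theorem is_Nb {x : HT P.toPre V (l + 1)} (hx : Is P.toPre (l + 1) _ x u) (hu : Sm I u) (c : ι) :
    Is P.toPre l _ (Nb P.toPre F l (P.mulH l _ _ (A c)) c x) (nab I F.e A c u) :=
  (h.is_Dt hx hu c).add ((hx.incl l.le_succ).mulH (h.cb c) (Maps.triv _))

theorem is_Q {x : HT P.toPre V (l + 2)} (hx : Is P.toPre (l + 2) _ x u) (hu : Sm I u) :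
    Is P.toPre l _ (Ql P.toPre F A l x) fun z => u z + lap I F.e F.dv A u z := by
  rw [Ql, QQ, sub_apply, _root_.sum_apply]
  refine is_eq' ((hx.incl (l.le_add_right 2)).sub (is_sum _ fun c _ =>
    (h.is_Nb (h.is_Nb hx hu c) (sm_nab h.sm c hu) c).add
      (((h.is_Nb hx hu c).incl l.le_succ).smulH (h.dv c)))) fun z => ?_
  simp only [lap, Pi.sub_apply, Pi.add_apply, sub_eq_add_neg]

theorem ic_Q (hl : k ≤ l) (x : HT P.toPre V (l + 2)) : ic P.toPre V l k (Ql P.toPre F A l x) =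
    Ql P.toPre F A k (ic P.toPre V (l + 2) (k + 2) x) :=
  Rep_incl (h.rep l) (h.rep k) (by omega) hl x

theorem al_Q (hu : Al P u) : Al P fun z => u z + lap I F.e F.dv A u z :=
  ⟨hu.1.add (sm_lap h.sm hu.1), fun k => let ⟨_, a⟩ := hu.2 (k + 2); ⟨_, h.is_Q a hu.1⟩⟩

/-- uniqueness -/
theorem is_of_Q (hi : Injective (Ql P.toPre F A l)) (hv : Al P v) {y : HT P.toPre V (l + 2)}
    (hy : Is P.toPre l _ (Ql P.toPre F A l y) fun z => v z + lap I F.e F.dv A v z) :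
    Is P.toPre (l + 2) _ y v := by
  obtain ⟨x, hx⟩ := hv.2 (l + 2)
  rwa [hi (hy.unique (h.is_Q hx hv.1))]

/-- existence -/
theorem res (hb : ∀ l, Bijective (Ql P.toPre F A l)) (hB : Mp86.Bumps I F.e F.dv)
    (hk : ∀ c x, Skew (A c x)) (hs : Al P s) : F.IsRes A s (F.res A s) ∧ Al P (F.res A s) := by
  obtain ⟨S, hS⟩ := h.sup
  obtain ⟨T, a, b⟩ := h.mix
  choose σ hσ using hs.2
  choose x hx using fun k => (hb k).2 (σ k)
  have e : ∀ {k l}, k ≤ l → ic P.toPre V (l + 2) (k + 2) (x l) = x k := fun {k l} hl =>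
    (hb k).1 (by rw [← h.ic_Q hl, hx, hx]; exact ((hσ l).incl hl).unique (hσ k))
  have h1 : P.Cb (P.val 6 _ (x 4)) := Cb_val hS (by omega) fun j hj => by
    obtain ⟨k, rfl⟩ : ∃ k, j = k + 2 := ⟨j - 2, by omega⟩
    exact ⟨x k, e (by omega)⟩
  have h2 : F.IsRes A s (P.val 6 _ (x 4)) := ⟨cb_sm h1, cb_bdd h1, fun z => by
    rw [← val_QQ hS a b h.dv le_rfl h.cb, ← Ql, hx, (hσ 4).val_eq hS le_rfl hs.1.continuous]⟩
  rw [Mp86.res_eq hB ⟨h.sm, hk⟩ h2]
  refine ⟨h2, cb_sm h1, fun k => ⟨ic P.toPre V (k + 4 + 2) k (x (k + 4)), Is.incl ?_ (by omega)⟩⟩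
  refine Is.of_incl (j := 4 + 2) (by omega) ?_
  rw [show P.incl (k + 4 + 2) (4 + 2) _ (x (k + 4)) = x 4 from e (by omega)]
  exact Is.val hS (by omega) _

end Ac

/-! ### the weighted scale inside the unweighted scale -/

section wt
variable {ψ : M → ℝ}

variable (V P P') in
/-- the inclusion -/
def jj (l : ℕ) : HT P'.toPre V l →L[ℝ] HT P.toPre V l := P'.liftT l l _ P.toPre _ id

theorem rep_jj (h : WtP P.toPre P'.toPre ψ) (h0 : ∀ x, 0 ≤ ψ x) (l : ℕ) :
    P'.RepT P.toPre (jj V P P' l) id ∧ ‖jj V P P' l‖ ≤ 1 :=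
  rep_liftT (fun _ hu => hu) (fun _ _ _ _ => rfl) (fun _ _ _ => rfl) zero_le_one fun u hu => by
    rw [one_mul]; exact h.nrm_le h0 l hu.1 hu.2.1

theorem ae_wt (h : WtP P.toPre P'.toPre ψ) {p : M → Prop} (hp : ∀ᵐ x ∂P.μ, p x) :
    ∀ᵐ x ∂P'.μ, p x := by
  rw [h.μ]; exact (withDensity_absolutelyContinuous _ _).ae_le hp

theorem is_repT {χ : M → ℝ} (h : WtP P.toPre P'.toPre ψ) {T : HT P'.toPre V k →L[ℝ] HT P.toPre V l}
    (hT : P'.RepT P.toPre T fun u z => χ z • u z) {x : HT P'.toPre V k}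
    (hx : Is P'.toPre k _ x u) : Is P.toPre l _ (T x) fun z => χ z • u z := by
  obtain ⟨w, h1, h2⟩ := exists_seq_ae x
  refine ae_eq_of_tendsto (((P.toL2 l _).continuous.tendsto _).comp
    ((T.continuous.tendsto _).comp h1)) ?_
  filter_upwards [ae_wt h.symm h2, ae_wt h.symm hx,
    ae_all_iff.2 fun n => toL2_toH (F := P.toPre) (k := l) ⟨_, RepT_mem hT (w n)⟩] with y a b c
  simp only [comp_apply, RepT_toH hT, c, ← b]
  exact a.const_smul _

theorem is_jj (h : WtP P.toPre P'.toPre ψ) (h0 : ∀ x, 0 ≤ ψ x) {x : HT P'.toPre V l} :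
    Is P.toPre l _ (jj V P P' l x) u ↔ Is P'.toPre l _ x u := by
  have key : ∀ {u}, Is P'.toPre l _ x u → Is P.toPre l _ (jj V P P' l x) u := fun hx => by
    simpa using is_repT (χ := fun _ => 1) h
      (RepT_congr (rep_jj h h0 l).1 fun _ => funext fun _ => (one_smul ℝ _).symm) hx
  exact ⟨fun hx => ae_wt h ((key EventuallyEq.rfl).symm.trans hx), key⟩

theorem Al.jj (h : WtP P.toPre P'.toPre ψ) (h0 : ∀ x, 0 ≤ ψ x) (hu : Al P' u) : Al P u :=
  ⟨hu.1, fun k => let ⟨_, a⟩ := hu.2 k; ⟨_, (is_jj h h0).2 a⟩⟩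

theorem jj_Q (h : WtP P.toPre P'.toPre ψ) (h0 : ∀ x, 0 ≤ ψ x) (a : Ac P F A) (a' : Ac P' F A)
    (x : HT P'.toPre V (l + 2)) :
    jj V P P' l (Ql P'.toPre F A l x) = Ql P.toPre F A l (jj V P P' (l + 2) x) :=
  DFunLike.congr_fun (RepT_eq (RepT_comp (rep_jj h h0 l).1 (a'.rep l))
    (RepT_comp (a.rep l) (rep_jj h h0 (l + 2)).1) fun _ => rfl) x

/-- uniqueness on the weighted scale through the unweighted scale -/
theorem is_of_Qw (h : WtP P.toPre P'.toPre ψ) (h0 : ∀ x, 0 ≤ ψ x) (a : Ac P F A) (a' : Ac P' F A)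
    (hi : Injective (Ql P.toPre F A l)) (hv : Al P v) {y : HT P'.toPre V (l + 2)}
    (hy : Is P'.toPre l _ (Ql P'.toPre F A l y) fun z => v z + lap I F.e F.dv A v z) :
    Is P'.toPre (l + 2) _ y v :=
  (is_jj h h0).1 (a.is_of_Q hi hv (by rw [← jj_Q h h0 a a']; exact (is_jj h h0).2 hy))

variable (V P P' ψ) in
/-- multiplication by the weight -/
def ew : HT P'.toPre V 0 →L[ℝ] HT P.toPre V 0 :=
  P'.liftT 0 0 _ P.toPre _ fun u z => Real.exp (ψ z) • u z

theorem rep_ew (h : WtP P.toPre P'.toPre ψ) :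
    P'.RepT P.toPre (ew V P P' ψ) (fun u z => Real.exp (ψ z) • u z) ∧ ‖ew V P P' ψ‖ ≤ 1 :=
  rep_liftT (fun u hu => mem_triv ((Nk89.sm_exp h.sm).smul hu.1)
      (hcs_bil_right (ContinuousLinearMap.lsmul ℝ ℝ) _ hu.2.1))
    (fun u _ v _ => funext fun x => by simp) (fun c u _ => funext fun x => by
      simp [smul_comm c]) zero_le_one fun u _ => by rw [one_mul, h.nrm_zero]; rfl

theorem inner_ew (h : WtP P.toPre P'.toPre ψ) (x y : HT P'.toPre V 0) :
    ⟪ew V P P' ψ x, ew V P P' ψ y⟫_ℝ = ⟪x, y⟫_ℝ := by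
  induction x, y using H_ind₂ with
  | hP => exact isClosed_eq (by fun_prop) (by fun_prop)
  | h u v =>
    rw [RepT_toH (rep_ew h).1, RepT_toH (rep_ew h).1, Pre.inner_toH, Pre.inner_toH, h.ip_zero]

end wt

/-! ### tests on dense sets -/

section dense
variable {κ K : Type} [Fintype κ] [DecidableEq κ] [NormedAddCommGroup K] [InnerProductSpace ℝ K]
  [CompleteSpace K] {S : Set K}

theorem ext_dense (hS : Dense S) {v w : Fm κ K} (h : ∀ k ∈ S, ct k v = ct k w) : v = w :=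
  ext_ct fun k => (isClosed_eq (cont_ct v) (cont_ct w)).closure_subset_iff.2 h (hS k)

theorem is_dense (hS : Dense S) {x : HT P.toPre (Fm κ K) l} {α : M → Fm κ K} (hα : Continuous α)
    (H : ∀ h ∈ S, Is P.toPre l _ (ctH κ K P.toPre l h x) fun z => ct h (α z)) :
    Is P.toPre l _ x α := by
  refine is_of_ctH hα.aestronglyMeasurable fun h => ?_
  obtain ⟨w, h1, h2⟩ := mem_closure_iff_seq_limit.1 (hS h)
  refine ae_eq_of_tendsto (((P.toL2 l _).continuous.tendsto _).comp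
    ((((ctH κ K P.toPre l).flip x).continuous.tendsto _).comp h2)) ?_
  filter_upwards [ae_all_iff.2 fun n => H _ (h1 n)] with y a
  simp only [comp_apply, ContinuousLinearMap.flip_apply, a]
  exact ((cont_ct _).tendsto _).comp h2

theorem norm_dense (hS : Dense S) {v : Fm κ K} {c : ℝ} (hc : 0 ≤ c)
    (h : ∀ k ∈ S, ‖ct k v‖ ≤ c * ‖k‖) : ‖v‖ ≤ √(Fintype.card κ) * c := by
  have h1 : ∀ k, ‖ct k v‖ ≤ c * ‖k‖ := fun k =>
    (isClosed_le (cont_ct v).norm (by fun_prop)).closure_subset_iff.2 h (hS k)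
  have := norm_of_ct (p := 1) (v := v) (c := c ^ 2) (fun _ _ => rfl) (fun _ => rfl) (fun k => by
    rw [← mul_pow]; exact pow_le_pow_left₀ (norm_nonneg _) (h1 k) 2) (sq_nonneg c)
  refine le_of_sq_le_sq ?_ (by positivity)
  rw [mul_pow, Real.sq_sqrt (Nat.cast_nonneg _)]
  simpa using this

end dense

end Crest.Agent.X212.Cys97
end
end

-- ▼ part X212/Cys97/Fam
section

/-!
# Row 212, CYC-SM (helper97): families of resolvents on all levels; smoothing chains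
-/

set_option autoImplicit false
set_option linter.unusedSectionVars false
set_option maxSynthPendingDepth 3
noncomputable section
open scoped Manifold ContDiff Topology InnerProductSpace BoundedContinuousFunction
open MeasureTheory Set Function Filter

namespace Crest.Agent.X212.Cys97
open An Sob92 Prm93 Wz78 Mon62 Cyc79 Ten12 Dm
open Ell97 (UB)
open Nk89 (WtP wm)

variable {E : Type} [NormedAddCommGroup E] [NormedSpace ℝ E] [FiniteDimensional ℝ E]
  [MeasurableSpace E] [BorelSpace E]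
  {HM : Type} [TopologicalSpace HM] {I : ModelWithCorners ℝ E HM} [I.Boundaryless]
  {M : Type} [TopologicalSpace M] [ChartedSpace HM M] [IsManifold I ∞ M]
  [MeasurableSpace M] [T2Space M] [BorelSpace M] [SecondCountableTopology M] {ι : Type} [Fintype ι]
  {J : Type} {X Y : J → Type} [∀ i, NormedAddCommGroup (X i)] [∀ i, NormedSpace ℝ (X i)]
  {κ : Type} [Fintype κ] [DecidableEq κ]
  {U V W : Type} [NormedAddCommGroup U] [InnerProductSpace ℝ U] [CompleteSpace U]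
  [NormedAddCommGroup V] [InnerProductSpace ℝ V] [CompleteSpace V]
  [NormedAddCommGroup W] [InnerProductSpace ℝ W] [CompleteSpace W]
  {K : Type} [NormedAddCommGroup K] [InnerProductSpace ℝ K] [CompleteSpace K]
  {D : Dm I M ι X Y} {G : ∀ i, X i → Fr I M ι} {A : ∀ i, Y i → ι → M → En κ} {j l : ℕ} {ε : Prop}

/-! ### functions -/

section fn
variable {F : Fr I M ι} {A : ι → M → V →L[ℝ] V} {u v : M → V} {θ θ' φ : M → ℝ} {s t : ℝ}

theorem q_smul (hA : ∀ a, Sm I (A a)) (hθ : Sm I θ) (hu : Sm I u) (z : M) :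
    θ z • u z + lap I F.e F.dv A (fun y => θ y • u y) z =
      θ z • (u z + lap I F.e F.dv A u z) + F.op (cmS F V θ) (cmB F A θ) u z := by
  have e : ∀ w : M → V, Wrd81.lap1 F A w z = w z + lap I F.e F.dv A w z := fun _ =>
    sub_eq_add_neg _ _
  simpa only [e] using lap1_cm (F := F) hA hθ hu z

theorem q_loc (hφ : Continuous φ) (hst : s < t) (h0 : ∀ z, φ z < t → θ z = 0)
    (h1 : ∀ z, s < φ z → θ' z = 1) (z : M) :
    θ z • (θ' z • u z + lap I F.e F.dv A (fun y => θ' y • u y) z) =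
      θ z • (u z + lap I F.e F.dv A u z) := by
  rcases lt_or_ge s (φ z) with h | h
  · have e : (fun y => θ' y • u y) =ᶠ[𝓝 z] u := by
      filter_upwards [(isOpen_lt continuous_const hφ).mem_nhds h] with y hy
      rw [h1 y hy, one_smul]
    rw [Eqv71.lap_congr e, h1 z h, one_smul]
  · simp only [h0 z (h.trans_lt hst), zero_smul]

theorem q_sub (hA : ∀ a, Sm I (A a)) (hu : Sm I u) (hv : Sm I v) (z : M) :
    (u z - v z) + lap I F.e F.dv A (fun y => u y - v y) z =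
      (u z + lap I F.e F.dv A u z) - (v z + lap I F.e F.dv A v z) := by
  have := Mp86.lap_add (F := F) hA (hu.sub hv) hv z
  simp only [sub_add_cancel] at this
  rw [this]; abel

end fn

theorem exists_ucut {P : J → Pre I M ι} {φ : J → M → ℝ} (hφ : UB P φ) {s t : ℝ} (hst : s < t) :
    ∃ χ : J → M → ℝ, UB P χ ∧ (∀ i z, φ i z ≤ s → χ i z = 0) ∧ (∀ i z, t ≤ φ i z → χ i z = 1) ∧
      ∀ i z, |χ i z| ≤ 1 :=
  have h := sub_pos.2 hst
  ⟨fun i => cf (t - s)⁻¹ s (φ i), ub_comp (h := fun r => Real.smoothTransition ((t - s)⁻¹ * (r - s)))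
    (Real.smoothTransition.contDiff.comp (contDiff_const.mul (contDiff_id.sub contDiff_const))) hφ,
    fun _ _ => cf_zero (by positivity), fun _ _ e => cf_one (by
      rw [inv_mul_eq_div, one_le_div h]; linarith), fun _ => cf_abs _ _⟩

/-- continuous representatives -/
def valB {P : Pre I M ι} {S : ℝ} (hS : Sup P S) : HT P V 4 →L[ℝ] (M →ᵇ V) :=
  LinearMap.mkContinuous
    { toFun := fun h => BoundedContinuousFunction.ofNormedAddCommGroup (P.val 4 _ h)
        (continuous_val hS le_rfl h) _ (norm_val_le hS le_rfl h)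
      map_add' := fun a b => BoundedContinuousFunction.ext (congrFun (val_add a b))
      map_smul' := fun a b => BoundedContinuousFunction.ext (congrFun (val_smul a b)) } √|S|
    fun h => (BoundedContinuousFunction.norm_le (by positivity)).2 (norm_val_le hS le_rfl h)

theorem bv_valB : Bv fun i => (valB (D.sup i) : D.H V 4 i →L[ℝ] _) :=
  ⟨_, fun _ => LinearMap.mkContinuous_norm_le _ (Real.sqrt_nonneg _) _⟩

theorem bv_smulH {f : J → M → ℝ} (hf : UB D.P f) (k : ℕ) :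
    Bv fun i => smulH (D.P i) k (triv M V) (f i) := Dm.UC.bv ((US.fixed hf).smulH k)

/-- multipliers on all levels -/
theorem mult0 (β : U →L[ℝ] V →L[ℝ] W) (hj : 7 ≤ j) (hlj : l ≤ j) {a : ∀ i, Y i → M → U}
    (h : D.A0 ε j a) : ∃ T : ∀ i, X i → D.H V l i →L[ℝ] D.H W l i, UC D.toRg T ∧
      ∀ i y, T i (D.pt i y) = (D.P i).mulH l _ _ fun x => β (a i y x) := by
  obtain ⟨b, δ, h1, -, h3, h4⟩ := h.ex
  have m1 := h1.clm β
  have hL := Lev.left hj hlj
  refine ⟨_, (UC.const (bv_mulH m1 l)).add (h3.clm (bv_bilH hL β)), fun i y => ?_⟩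
  ext u
  have hu : Is (D.P i) l _ u ((D.P i).toL2 l _ u) := EventuallyEq.rfl
  refine ((hu.mulH (m1.cb i) (Maps.triv _)).add ((Is.val (D.sup i) (by omega) _).bilH (D.sup i) hL
    (Cb_const β) (Maps₂.triv _) hu)).unique (is_eq' (hu.mulH (Cb_clm β (h.sz.cb i y))
      (Maps.triv _)) fun z => ?_)
  simp only [h4, map_add, add_apply, Pi.add_apply]

variable (D G A) in
/-- a family of frames and connections whose resolvents act on all levels -/
structure Mo (j : ℕ) : Prop where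
  hj : 7 ≤ j
  mix : ∃ S : ι → ι → ∀ i, X i → M → ℝ, (∀ a b, D.US (S a b)) ∧
    ∀ i, ∀ x ∈ D.U i, Mix (D.P i) (G i x).toPre fun a b => S a b i x
  dv : ∀ a, D.US fun i x => (G i x).dv a
  bump : ∀ i y, Mp86.Bumps I (G i (D.pt i y)).e (G i (D.pt i y)).dv
  ra : RA (Eu κ) D G
  a0 : ∀ c, D.A0 False j fun i y x => hsL (A i y c x)
  sk : ∀ i y c x, Skew (A i y c x)

namespace Mo
variable (h : Mo D G A j)
include h

theorem sz (c : ι) : D.Sz fun i y => A i y c :=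
  ((h.a0 c).sz.clm opL).congr fun _ _ _ => (opL_hsL _).symm

theorem ac (i : J) (y : Y i) : Ac (D.F i) (G i (D.pt i y)) (A i y) :=
  let ⟨_, a, b⟩ := h.mix
  ⟨⟨_, D.sup i⟩, ⟨_, b i _ (D.mem i y), fun c d => (a c d).cb i _ (D.mem i y)⟩,
    fun c => (h.dv c).cb i _ (D.mem i y), fun c => (h.sz c).cb i y⟩

theorem adm (i : J) (y : Y i) (l : ℕ) : ((fun c => (D.P i).mulH l _ _ (A i y c),
    fun c => (D.P i).mulH (l + 1) _ _ (A i y c)) : Mu (D.P i) (Eu κ) l) ∈ Adm (Eu κ) (D.P i) l :=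
  ⟨A i y, (h.ac i y).sm, h.sk i y, fun c => rep_mulH ((h.ac i y).cb c) (Maps.triv _),
    fun c => rep_mulH ((h.ac i y).cb c) (Maps.triv _)⟩

theorem bij (i : J) (y : Y i) (l : ℕ) : Bijective (Ql (D.P i) (G i (D.pt i y)) (A i y) l) :=
  (h.ra l).1 i _ (D.mem i y) _ (subset_closure (h.adm i y l))

theorem res (i : J) (y : Y i) {s : M → Eu κ} (hs : Al (D.F i) s) :
    (G i (D.pt i y)).IsRes (A i y) s ((G i (D.pt i y)).res (A i y) s) ∧
      Al (D.F i) ((G i (D.pt i y)).res (A i y) s) :=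
  (h.ac i y).res (h.bij i y) (h.bump i y) (h.sk i y) hs

theorem mul (hl : l ≤ j) : ∃ T : ι → ∀ i, X i → D.H (Eu κ) l i →L[ℝ] D.H (Eu κ) l i,
    (∀ c, UC D.toRg (T c)) ∧ ∀ c i y, T c i (D.pt i y) = (D.P i).mulH l _ _ (A i y c) := by
  choose T a b using fun c => mult0 opL h.hj hl (h.a0 c)
  exact ⟨T, a, fun c i y => by simp only [b, opL_hsL]⟩

theorem uc_Nb {T : ∀ i, X i → D.H V l i →L[ℝ] D.H V l i} (hT : UC D.toRg T) (c : ι) :
    UC D.toRg fun i x => Nb (D.P i) (G i x) l (T i x) c := by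
  obtain ⟨S, s1, s2⟩ := h.mix
  exact ((UC.sum fun b => ((s1 c b).smulH l).comp (UC.const (bv_DH l b))).congr fun i x hx =>
    Dt_eq (s2 i x hx) (fun a b => (s1 a b).cb i x hx) l c).add
      (hT.comp (UC.const (bv_ic l.le_succ)))

/-- the resolvents -/
theorem exists_R (hl : l + 1 ≤ j) :
    ∃ R : ∀ i, X i → D.H (Eu κ) l i →L[ℝ] D.H (Eu κ) (l + 2) i, UC D.toRg R ∧
      ∀ i y f, Ql (D.P i) (G i (D.pt i y)) (A i y) l (R i (D.pt i y) f) = f := by
  obtain ⟨T₁, a1, a2⟩ := h.mul (l.le_succ.trans hl)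
  obtain ⟨T₂, b1, b2⟩ := h.mul hl
  let T : ∀ i, X i → Mu (D.P i) (Eu κ) l := fun i x => (fun c => T₁ c i x, fun c => T₂ c i x)
  have hT : ∀ i y, T i (D.pt i y) = (fun c => (D.P i).mulH l _ _ (A i y c),
      fun c => (D.P i).mulH (l + 1) _ _ (A i y c)) := fun i y => by simp only [T, a2, b2]
  have hc : ∀ i, ∀ x ∈ D.U i, T i x ∈ closure (Adm (Eu κ) (D.P i) l) := fun i x hx => by
    have c1 : ContinuousAt (T i) x :=
      (continuousAt_pi.2 fun c => ((a1 c).sm.diff hx).continuousAt).prodMk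
        (continuousAt_pi.2 fun c => ((b1 c).sm.diff hx).continuousAt)
    refine c1.continuousWithinAt.mem_closure (D.dns i hx) ?_
    rintro _ ⟨y, rfl⟩
    exact hT i y ▸ h.adm i y l
  have hi : ∀ i, ∀ x ∈ D.U i, (QQ (D.P i) (G i x) l (T i x)).IsInvertible := fun i x hx =>
    isInvertible_of_bij ((h.ra l).1 i x hx _ (hc i x hx))
  have hb : ∃ R, ∀ i, ∀ x ∈ D.B i, ‖T i x‖ ≤ R := by
    choose K₁ n1 k1 using fun c => (a1 c).bd0.nn
    choose K₂ n2 k2 using fun c => (b1 c).bd0.nn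
    have p1 := Finset.sum_nonneg fun c (_ : c ∈ Finset.univ) => n1 c
    have p2 := Finset.sum_nonneg fun c (_ : c ∈ Finset.univ) => n2 c
    refine ⟨∑ c, K₁ c + ∑ c, K₂ c, fun i x hx => max_le ?_ ?_⟩
    · exact (pi_norm_le_iff_of_nonneg (by positivity)).2 fun c => (k1 c i x hx).trans
        ((Finset.single_le_sum (fun c _ => n1 c) (Finset.mem_univ c)).trans (by linarith))
    · exact (pi_norm_le_iff_of_nonneg (by positivity)).2 fun c => (k2 c i x hx).trans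
        ((Finset.single_le_sum (fun c _ => n2 c) (Finset.mem_univ c)).trans (by linarith))
  obtain ⟨R, hR⟩ := hb
  obtain ⟨K, hK⟩ := (h.ra l).2 R
  have hQ : UC D.toRg fun i x => QQ (D.P i) (G i x) l (T i x) :=
    (UC.const (bv_ic (by omega))).sub (UC.sum fun c => ((h.uc_Nb (a1 c) c).add
      (((h.dv c).smulH l).comp (UC.const (bv_ic l.le_succ)))).comp (h.uc_Nb (b1 c) c))
  refine ⟨_, hQ.inverse hi ⟨|K|, fun i x hx =>
    norm_inverse_le (hi i x (D.sub i hx)) (abs_nonneg K) fun u =>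
      (hK i x hx _ (hc i x (D.sub i hx)) (hR i x hx) u).trans
        (mul_le_mul_of_nonneg_right (le_abs_self K) (norm_nonneg _))⟩, fun i y f => ?_⟩
  rw [Ql, ← hT, apply_inverse (hi i _ (D.mem i y))]

/-- the commutators -/
theorem exists_cm (hl : l ≤ j) {θ : J → M → ℝ} (hθ : UB D.P θ) :
    ∃ C : ∀ i, X i → D.H (Eu κ) (l + 1) i →L[ℝ] D.H (Eu κ) l i, UC D.toRg C ∧
      ∀ i y x (u : M → Eu κ), Sm I u → Is (D.P i) (l + 1) _ x u → Is (D.P i) l _ (C i (D.pt i y) x)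
        ((G i (D.pt i y)).op (cmS (G i (D.pt i y)) _ (θ i)) (cmB (G i (D.pt i y)) (A i y) (θ i)) u) := by
  obtain ⟨T, a1, a2⟩ := h.mul hl
  obtain ⟨S, s1, s2⟩ := h.mix
  let m : ∀ k, ι → ∀ i, X i → D.H (Eu κ) k i →L[ℝ] D.H (Eu κ) k i := fun k c i x =>
    ∑ b, smulH (D.P i) k _ (S c b i x) ∘L smulH (D.P i) k _ ((D.P i).D b (θ i))
  have m1 : ∀ k c, UC D.toRg (m k c) := fun k c =>
    UC.sum fun b => ((s1 c b).smulH k).comp (UC.const (bv_smulH (hθ.D b) k))
  have m2 : ∀ k c i y x u, Is (D.P i) k _ x u → Is (D.P i) k _ (m k c i (D.pt i y) x)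
      fun z => (G i (D.pt i y)).D c (θ i) z • u z := fun k c i y x u hx => by
    simp only [m, _root_.sum_apply, (s2 i _ (D.mem i y)).D, Finset.sum_smul, smul_assoc]
    exact is_sum _ fun b _ => (hx.smulH ((hθ.D b).cb i)).smulH ((s1 c b).cb i _ (D.mem i y))
  refine ⟨_, (UC.sum fun c => ((m1 l c).comp (h.uc_Nb (a1 c) c)).add (((h.uc_Nb (a1 c) c).add
    (((h.dv c).smulH l).comp (UC.const (bv_ic l.le_succ)))).comp (m1 (l + 1) c))).neg,
    fun i y x u hu hx => ?_⟩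
  have a := h.ac i y
  simp only [neg_apply, _root_.sum_apply, a2]
  exact is_eq' (is_neg (is_sum _ fun c _ => (m2 _ c i y _ _ (a.is_Nb hx hu c)).add
    ((a.is_Nb (m2 _ c i y _ _ hx) (((G i _).sm_D (hθ.sm i) c).smul hu) c).add
      (((m2 _ c i y _ _ hx).incl l.le_succ).smulH (a.dv c))))) (cm_eq a.sm (hθ.sm i) hu)

/-- freezing at the base points -/
theorem frz {k : ℕ} (hk : 7 ≤ k) :
    Mo D (fun i _ => G i (D.pt i (D.y₀ i))) (fun i _ => A i (D.y₀ i)) k :=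
  let ⟨S, s1, s2⟩ := h.mix
  ⟨hk, ⟨fun a b i _ => S a b i (D.pt i (D.y₀ i)), fun a b => US.fixed (s1 a b).sz.ub,
    fun i _ _ => s2 i _ (D.mem i _)⟩, fun a => US.fixed (h.dv a).sz.ub, fun i _ => h.bump i _,
    fun l => ⟨fun i _ _ => (h.ra l).1 i _ (D.mem i _), fun R =>
      let ⟨K, hK⟩ := (h.ra l).2 R; ⟨K, fun i _ _ => hK i _ (D.base i)⟩⟩,
    fun c => A0.fixed (h.a0 c).sz.ub, fun i _ => h.sk i _⟩

end Mo

/-! ### change of the weight -/

namespace Uw
variable {N : Type} [NormedAddCommGroup N] [NormedSpace ℝ N] (u : Uw V D G)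

/-- the unweighted model -/
abbrev Du : Dm I M ι X Y := chF D u.F u.C u.tame

theorem ub {f : J → M → N} : UB u.Du.P f ↔ UB D.P f :=
  exists_congr fun _ => forall_congr' fun i => (u.wt i).CBs.symm

theorem us {f : ∀ i, X i → M → N} (h : D.US f) : u.Du.US f := by
  refine ⟨fun i x hx => (u.wt i).Cb.1 (h.cb i x hx), fun k => ?_⟩
  let L : ∀ i, B (D.P i) k N →L[ℝ] B (u.Du.P i) k N := fun i => LinearMap.mkContinuous
    { toFun := fun f => B.mk k (B.fn f) ((u.wt i).Cb.1 f.cb)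
      map_add' := fun _ _ => rfl
      map_smul' := fun _ _ => rfl } 1 fun f => by
        rw [one_mul]; exact (B.norm_le (norm_nonneg _)).2 ((u.wt i).CB.1 f.CB)
  exact ((h.uc k).clm (L := L) ⟨1, fun _ => LinearMap.mkContinuous_norm_le _ zero_le_one _⟩).congr
    fun i x hx => (eq_toB (F := u.Du.P i) (fn_toB (F := D.P i) (h.cb i x hx))).symm

theorem bv_jj (l : ℕ) : Bv fun i => jj W (u.F i) (D.F i) l :=
  ⟨1, fun i => (rep_jj (u.wt i) (u.pos i) l).2⟩

theorem a0 {w : ∀ i, Y i → M → W} (hj : 4 ≤ j) (h : D.A0 ε j w) : u.Du.A0 ε j w := by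
  obtain ⟨b, δ, h1, h2, h3, h4⟩ := h.ex
  refine ⟨⟨fun i y => (u.wt i).Cb.1 (h.sz.cb i y), u.ub.2 h.sz.ub⟩, b, _, u.ub.2 h1, h2,
    h3.clm (u.bv_jj j), fun i y x => (h4 i y x).trans (congrArg _ (congrFun ?_ x))⟩
  exact (((is_jj (u.wt i) (u.pos i)).2 (Is.val (D.sup i) hj _)).val_eq (u.Du.sup i) hj
    (continuous_val (D.sup i) hj _)).symm

end Uw

theorem Mo.uw (h : Mo D G A j) (u : Uw (Eu κ) D G) : Mo u.Du G A j :=
  let ⟨S, s1, s2⟩ := h.mix
  ⟨h.hj, ⟨S, fun a b => u.us (s1 a b), fun i x hx a z => (s2 i x hx a z).trans (by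
    simp only [(u.wt i).e])⟩, fun a => u.us (h.dv a), h.bump, u.ra0,
    fun c => u.a0 (h.hj.trans' (by omega)) (h.a0 c), h.sk⟩

/-! ### smoothing chains -/

variable (D G A) in
/-- the solution with the source `g s` -/
def uu (g : ∀ i, Y i → M → HS κ) (i : J) (y : Y i) (s : M → Eu κ) : M → Eu κ :=
  (G i (D.pt i y)).res (A i y) fun z => opL (g i y z) (s z)

variable (D G A) in
/-- `T` is the operator `θ G g` -/
def Ch (g : ∀ i, Y i → M → HS κ) (π : ∀ i, K →L[ℝ] D.H (Eu κ) 0 i) (θ : J → M → ℝ) (k : ℕ) : Prop :=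
  ∃ T : ∀ i, X i → K →L[ℝ] D.H (Eu κ) k i, UC D.toRg T ∧ ∀ i y k' (s : Sec I (triv M (Eu κ))),
    π i k' = (D.P i).toH 0 _ s →
      Is (D.P i) k _ (T i (D.pt i y) k') fun z => θ i z • uu D G A g i y s.1 z

namespace Mo
variable (h : Mo D G A j) {g : ∀ i, Y i → M → HS κ} (hg : D.A0 False j g)
  {π : ∀ i, K →L[ℝ] D.H (Eu κ) 0 i} (hπ : Bv π) {φ θ : J → M → ℝ}
include h hg

theorem res_uu (i : J) (y : Y i) (s : Sec I (triv M (Eu κ))) :
    (G i (D.pt i y)).IsRes (A i y) (fun z => opL (g i y z) (s.1 z)) (uu D G A g i y s.1) ∧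
      Al (D.F i) (uu D G A g i y s.1) := h.res i y ((al_sec s).app (Cb_clm opL (hg.sz.cb i y)))

include hπ

theorem ch0 (hθ : UB D.P θ) : Ch D G A g π θ 2 := by
  obtain ⟨R, r1, r2⟩ := h.exists_R (l := 0) (h.hj.trans' (by omega))
  obtain ⟨T, t1, t2⟩ := mult0 opL h.hj j.zero_le hg
  refine ⟨_, (UC.const (bv_smulH hθ 2)).comp (r1.comp (t1.comp (UC.const hπ))),
    fun i y k s e => ?_⟩
  obtain ⟨a, b⟩ := h.res_uu hg i y s
  simp only [ContinuousLinearMap.comp_apply]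
  refine Is.smulH (hθ.cb i) ((h.ac i y).is_of_Q (h.bij i y 0).1 b ?_)
  simp only [r2, t2, e, a.2.2]
  exact (Is.toH s).mulH (Cb_clm opL (hg.sz.cb i y)) (Maps.triv _)

theorem ch (hφ : UB D.P φ) (h0 : ∀ i y z, g i y z ≠ 0 → φ i z ≤ 0) (k : ℕ) (hk : k + 1 ≤ j) :
    ∀ {θ : J → M → ℝ} {t : ℝ}, 0 < t → UB D.P θ → (∀ i z, φ i z < t → θ i z = 0) →
      Ch D G A g π θ (k + 2) := by
  induction k with
  | zero => exact fun _ hθ _ => h.ch0 hg hπ hθ
  | succ k ih =>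
    intro θ t ht hθ e0
    obtain ⟨χ, c1, c2, c3, -⟩ := exists_ucut hφ (show t / 3 < t / 2 by linarith)
    obtain ⟨T, t1, t2⟩ := ih (by omega) (show 0 < t / 3 by linarith) c1 fun i z e => c2 i z e.le
    obtain ⟨R, r1, r2⟩ := h.exists_R hk
    obtain ⟨C, d1, d2⟩ := h.exists_cm (l := k + 1) (by omega) hθ
    refine ⟨_, r1.comp (d1.comp t1), fun i y k' s e => ?_⟩
    obtain ⟨a, b⟩ := h.res_uu hg i y s
    refine (h.ac i y).is_of_Q (h.bij i y _).1 (b.smul (hθ.cb i)) ?_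
    simp only [ContinuousLinearMap.comp_apply, r2]
    refine is_eq' (d2 i y _ _ (Wrd81.sm_smul (c1.sm i) b.1) (t2 i y k' s e)) fun z => ?_
    rw [q_smul (h.ac i y).sm (hθ.sm i) b.1, cm_cut (hφ.sm i).continuous (half_lt_self ht) (e0 i)
      fun z e => c3 i z e.le, a.2.2, add_eq_right]
    by_cases e1 : g i y z = 0
    · simp [e1]
    · rw [e0 i z ((h0 i y z e1).trans_lt ht), zero_smul]

/-- bounds of the base fields -/
theorem ub_base (hφ : UB D.P φ) (h0 : ∀ i y z, g i y z ≠ 0 → φ i z ≤ 0) {t : ℝ} (ht : 0 < t)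
    (hθ : UB D.P θ) (e0 : ∀ i z, φ i z < t → θ i z = 0)
    (hd : ∀ i, Dense {k | ∃ s, π i k = (D.P i).toH 0 _ s}) {b : J → M → Fm κ K}
    (hb : ∀ i, Sm I (b i)) (e : ∀ i k (s : Sec I (triv M (Eu κ))), π i k = (D.P i).toH 0 _ s →
      ∀ z, ct k (b i z) = θ i z • uu D G A g i (D.y₀ i) s.1 z) : UB D.P b := by
  choose T t1 t2 using fun n => (h.frz (k := n + 7) (by omega)).ch (A0.fixed hg.sz.ub) hπ hφ
    (fun i _ => h0 i _) (n + 2) (by omega) ht hθ e0
  choose L l0 hL using fun n => (Dm.UC.bv (t1 n)).nn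
  refine ⟨fun n => √(Fintype.card κ) * (√|D.C 0| * L n), fun i => ⟨hb i, fun n w hw z =>
    norm_dense (hd i) (by have := l0 n; positivity) fun k ⟨s, hs⟩ => ?_⟩⟩
  have e1 := (t2 n i (D.y₀ i) k s hs).val_eq (D.sup i) (by omega)
    ((hθ.sm i).smul (Mp86.sm_res _ _ _)).continuous
  rw [← congrFun (Cyc79.Dw_clm (D.P i) (ct k) w (hb i)) z, funext (e i k s hs), mul_assoc]
  refine (e1 ▸ CB_val (D.sup i) n le_rfl _ w hw z :).trans ?_
  exact mul_le_mul_of_nonneg_left (ContinuousLinearMap.le_of_opNorm_le _ (hL n i) _)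
    (Real.sqrt_nonneg _)

end Mo

end Crest.Agent.X212.Cys97
end
end

-- ▼ part X212/Cys97/Ker
section

/-!
# Row 212, CYC-SM (helper97): `θ² G α` is Hilbert-Schmidt into the weighted space
-/

set_option autoImplicit false
set_option linter.unusedSectionVars false
set_option maxSynthPendingDepth 3
noncomputable section
open scoped Manifold ContDiff Topology InnerProductSpace BoundedContinuousFunction
open MeasureTheory Set Function Filter Real

namespace Crest.Agent.X212.Cys97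
open An Sob92 Prm93 Wz78 Mon62 Cyc79 Ten12 Dm
open Ell97 (UB)
open Nk89 (WtP wm integral_wm)

variable {E : Type} [NormedAddCommGroup E] [NormedSpace ℝ E] [FiniteDimensional ℝ E]
  [MeasurableSpace E] [BorelSpace E]
  {HM : Type} [TopologicalSpace HM] {I : ModelWithCorners ℝ E HM} [I.Boundaryless]
  {M : Type} [TopologicalSpace M] [ChartedSpace HM M] [IsManifold I ∞ M]
  [MeasurableSpace M] [T2Space M] [BorelSpace M] [SecondCountableTopology M] {ι : Type} [Fintype ι]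
  {κ : Type} [Fintype κ] [DecidableEq κ]

section one
variable {P P₀ F : Fr I M ι} {A : ι → M → En κ} {ψ ℓ U θ η ζ : M → ℝ} {l : ℕ}

/-- a smooth multiple of a test section -/
def sS {V : Type} [NormedAddCommGroup V] [InnerProductSpace ℝ V] {f : M → ℝ} (hf : Sm I f)
    (u : Sec I (triv M V)) : Sec I (triv M V) :=
  ⟨fun z => f z • u.1 z, mem_triv (hf.smul u.2.1) (hcs_bil_right (.lsmul ℝ ℝ) f u.2.2.1)⟩

theorem sm_e2 (h : Sm I ψ) : Sm I fun z => exp (2 * ψ z) := Nk89.sm_exp (contMDiff_const.mul h)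

theorem sm_inv {f : M → ℝ} (h : Sm I f) : Sm I fun z => (exp (f z))⁻¹ := by
  simpa only [exp_neg] using Nk89.sm_exp h.neg

theorem sm_wt (hθ : Sm I θ) (hψ : Sm I ψ) (hℓ : Sm I ℓ) :
    Sm I fun y => θ y * exp (2 * ψ y) * (exp (2 * ℓ y))⁻¹ :=
  (hθ.mul (sm_e2 hψ)).mul (sm_inv (f := fun y => 2 * ℓ y) (contMDiff_const.mul hℓ))

theorem res_sec (h : Ok F A) (σ : Sec I (triv M (Eu κ))) : F.IsRes A σ.1 (F.res A σ.1) :=
  (h.res (lv_toH σ) σ.2.1 (Is.toH σ)).1

theorem sym_res (h : Ok F A) (σ τ : Sec I (triv M (Eu κ))) :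
    ∫ z, ⟪F.res A σ.1 z, τ.1 z⟫_ℝ ∂F.μ = ∫ z, ⟪σ.1 z, F.res A τ.1 z⟫_ℝ ∂F.μ := by
  rw [← Cyc79.is_inner (h.res (lv_toH τ) τ.2.1 (Is.toH τ)).2.2, ← h.G_symm, real_inner_comm,
    Cyc79.is_inner (h.res (lv_toH σ) σ.2.1 (Is.toH σ)).2.2]
  simp only [real_inner_comm]

theorem jj_smulH {V : Type} [NormedAddCommGroup V] [InnerProductSpace ℝ V] [CompleteSpace V]
    (h : WtP P₀.toPre P.toPre ψ) (h0 : ∀ x, 0 ≤ ψ x) (hθ : P.Cb θ) (x : HT P.toPre V l) :
    jj V P₀ P l (smulH P.toPre l _ θ x) = smulH P₀.toPre l _ θ (jj V P₀ P l x) :=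
  ((is_jj h h0).2 (Is.smulH hθ EventuallyEq.rfl)).unique
    (((is_jj h h0).2 EventuallyEq.rfl).smulH (h.Cb.1 hθ))

variable (F A ψ ℓ θ η) in
/-- the adjoint kernel -/
def kr (ν : M → Eu κ) (z : M) : Eu κ := (exp (2 * ℓ z) * (exp (ψ z))⁻¹ * η z) •
  F.res A (fun y => (θ y * exp (2 * ψ y) * (exp (2 * ℓ y))⁻¹) • ν y) z

theorem sup_kr (hw : WtP P₀.toPre P.toPre ψ) (hℓ : Sm I ℓ) (hμ : F.μ = wm P₀.μ ℓ) (h : Ok F A)
    (hU : Wu F U) {c S N L : ℝ} (hc : 0 < c)
    (e : ∀ x, c * U x ≤ exp (2 * ψ x) ∧ c * exp (2 * ψ x) ≤ U x) (hL : ∀ x, |ℓ x| ≤ L)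
    (hS : Mp86.L4 F.toPre S) (hS0 : 0 < S) (hζ : Cu F N ζ) (hη : Cu F N η) (hN : 0 < N)
    (h1 : ∀ x, |ζ x| ≤ 1) (h2 : ∀ x, |η x| ≤ 1) (hθ : Sm I θ) (h3 : ∀ x, |θ x| ≤ 1)
    (e1 : ∀ x, ζ x ≠ 0 → θ x = 0) (e2 : ∀ x, η x ≠ 0 → ζ x = 1) (ν : Sec I (triv M (Eu κ))) (z : M) :
    ‖kr F A ψ ℓ θ η ν.1 z‖ ≤ √(6 * kL S N * c⁻¹ ^ 2 * exp (2 * L) ^ 3) * P.nrm 0 ν.1 := by
  let σ := sS (sm_wt hθ hw.sm hℓ) ν
  have k := sup_w h.tame.choose_spec h.mc hU hS hS0 hζ hη hN h1 h2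
    (s := σ.1) (fun x hx => by simp [σ, sS, e1 x hx]) e2 σ.2.1.continuous σ.2.2.1 z
  have k0 := kL_nonneg hS0.le hN.le
  have b1 : ∀ x, exp (2 * ℓ x) ≤ exp (2 * L) := fun x => exp_le_exp.2 (by linarith [abs_le.1 (hL x)])
  have b2 : ∀ x, (exp (2 * ℓ x))⁻¹ ≤ exp (2 * L) := fun x => by
    rw [← exp_neg]; exact exp_le_exp.2 (by linarith [abs_le.1 (hL x)])
  have k1 : ∫ y, (U y)⁻¹ * ‖σ.1 y‖ ^ 2 ∂F.μ ≤ c⁻¹ * exp (2 * L) * P.nrm 0 ν.1 ^ 2 := by
    rw [← Pre.norm_toH, sq_toH, hw.integral, hμ, integral_wm hℓ.continuous, ← integral_const_mul]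
    refine integral_mono_of_nonneg (.of_forall fun y => ?_) (Integrable.const_mul
      (((sm_e2 hw.sm).continuous.smul (ν.2.1.continuous.norm.pow 2)).integrable_of_hasCompactSupport
        (ν.2.2.1.mono fun y hy e => hy (by simp [e]))) _) (.of_forall fun y => ?_)
    · have := hU.pos y; positivity
    · have a1 : (U y)⁻¹ ≤ (c * exp (2 * ψ y))⁻¹ := inv_anti₀ (by positivity) (e y).2
      have a2 : θ y ^ 2 ≤ 1 := (sq_le_one_iff_abs_le_one _).2 (h3 y)
      simp only [σ, sS, Pi.mul_apply, norm_smul, mul_pow, Real.norm_eq_abs, sq_abs, smul_eq_mul]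
      calc _ ≤ exp (2 * ℓ y) * ((c * exp (2 * ψ y))⁻¹ *
            (1 * exp (2 * ψ y) ^ 2 * (exp (2 * ℓ y))⁻¹ ^ 2 * ‖ν.1 y‖ ^ 2)) := by gcongr
        _ = c⁻¹ * (exp (2 * ℓ y))⁻¹ * (exp (2 * ψ y) * ‖ν.1 y‖ ^ 2) := by field_simp
        _ ≤ _ := by gcongr; exact b2 y
  refine le_of_sq_le_sq ?_ (mul_nonneg (sqrt_nonneg _) (nrm_nonneg _ _))
  have a3 : U z ≤ c⁻¹ * exp (ψ z) ^ 2 := by
    rw [← exp_nat_mul, le_inv_mul_iff₀ hc]; exact (e z).1
  have := hU.pos z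
  rw [mul_pow, sq_sqrt (by positivity), kr, mul_smul, norm_smul, mul_pow, Real.norm_eq_abs, sq_abs]
  calc _ ≤ (exp (2 * L) * (exp (ψ z))⁻¹) ^ 2 * (6 * kL S N * (c⁻¹ * exp (ψ z) ^ 2) *
        (c⁻¹ * exp (2 * L) * P.nrm 0 ν.1 ^ 2)) := by
        refine mul_le_mul (by gcongr; exact (abs_le.1 (hL z)).2) (k.trans ?_) (sq_nonneg _) (sq_nonneg _)
        exact mul_le_mul (by gcongr) k1 (integral_nonneg fun y => by have := hU.pos y; positivity)
          (by positivity)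
    _ = _ := by field_simp

theorem exists_Λ (hψ : Sm I ψ) (hℓ : Sm I ℓ) (h : Ok F A) (hθ : Sm I θ) (hη : Sm I η) {c : ℝ}
    (hc : 0 ≤ c) (hb : ∀ (ν : Sec I (triv M (Eu κ))) z, ‖kr F A ψ ℓ θ η ν.1 z‖ ≤ c * P.nrm 0 ν.1) :
    ∃ Λ : HT P.toPre (Eu κ) 0 →L[ℝ] (M →ᵇ Eu κ), (∀ ν z, Λ (P.toH 0 _ ν) z = kr F A ψ ℓ θ η ν.1 z) ∧
      ‖Λ‖ ≤ c := by
  have s1 := sm_wt hθ hψ hℓ
  obtain ⟨Λ, a, b⟩ := P.exists_ext (k := 0) (X := M →ᵇ Eu κ)
    { toFun := fun ν : Sec I (triv M (Eu κ)) => BoundedContinuousFunction.ofNormedAddCommGroup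
        (kr F A ψ ℓ θ η ν.1) ((((sm_e2 hℓ).mul (sm_inv hψ)).mul hη).smul
          (Mp86.sm_res _ _ _)).continuous _ (hb ν)
      map_add' := fun u v => BoundedContinuousFunction.ext fun z => by
        have := congrFun (Mp86.res_add h.bmp h.mc ⟨_, res_sec h (sS s1 u)⟩ ⟨_, res_sec h (sS s1 v)⟩) z
        simp only [sS, Pi.mul_apply] at this
        change kr F A ψ ℓ θ η _ z = kr F A ψ ℓ θ η _ z + kr F A ψ ℓ θ η _ z
        simp [kr, this]
      map_smul' := fun r u => BoundedContinuousFunction.ext fun z => by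
        have := congrFun (Mp86.res_smul h.bmp h.mc r (sS s1 u).1) z
        simp only [sS, Pi.mul_apply] at this
        change kr F A ψ ℓ θ η _ z = r • kr F A ψ ℓ θ η _ z
        simp [kr, smul_comm _ r, this] } hc
    fun ν => (BoundedContinuousFunction.norm_le (mul_nonneg hc (nrm_nonneg _ _))).2 (hb ν)
  exact ⟨Λ, fun ν z => congrArg (fun f : M →ᵇ Eu κ => f z) (a ν), b⟩

variable (κ) in
/-- the adjoint action -/
def aL : HS κ →L[ℝ] Eu κ →L[ℝ] Eu κ := adjL (Eu κ) (Eu κ) ∘L opL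

theorem inner_aL (ξ : HS κ) (v w : Eu κ) : ⟪aL κ ξ v, w⟫_ℝ = ⟪v, opL ξ w⟫_ℝ :=
  ContinuousLinearMap.adjoint_inner_left _ _ _

theorem cb_ms (hη : Sm I η) (s : Sec I (triv M (Eu κ))) :
    P.Cb fun z => (opL : HS κ →L[ℝ] En κ).flip ((sS hη s).1 z) :=
  Cb_clm _ (Cb_of_hcs (sS hη s).2.1 (sS hη s).2.2.1)

theorem ker_eq (hw : WtP P₀.toPre P.toPre ψ) (h0 : ∀ x, 0 ≤ ψ x) (hℓ : Sm I ℓ)
    (hμ : F.μ = wm P₀.μ ℓ) (h : Ok F A) (a₀ : Ac P₀ F A) (a : Ac P F A)
    (hb : ∀ l, Bijective (Ql P₀.toPre F A l)) (hθ : P.Cb θ) (hη : Sm I η)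
    {Λ : HT P.toPre (Eu κ) 0 →L[ℝ] (M →ᵇ Eu κ)} (hΛ : ∀ ν z, Λ (P.toH 0 _ ν) z = kr F A ψ ℓ θ η ν.1 z)
    {e : HT P₀.toPre (HS κ) 0 →L[ℝ] (HT P.toPre (Eu κ) 0 →L[ℝ] (M →ᵇ Eu κ)) →L[ℝ]
      HT P₀.toPre (Fm κ (HT P.toPre (Eu κ) 0)) 0}
    (he : ∀ x Λ h α, Is P₀.toPre 0 _ x α →
      Is P₀.toPre 0 _ (ctH κ _ P₀.toPre 0 h (e x Λ)) fun z => aL κ (α z) (Λ h z))
    {R : HT P.toPre (Eu κ) 0 →L[ℝ] HT P.toPre (Eu κ) 2} (hR : ∀ f, Ql P.toPre F A 0 (R f) = f)
    (s : Sec I (triv M (Eu κ))) (x : HT P.toPre (HS κ) 0) :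
    ctH κ _ P.toPre 0 (P₀.toH 0 _ s) (flp κ κ P₀.toPre P.toPre 0 0 (e (ew _ P₀ P ψ x) Λ)) =
      smulH P.toPre 0 _ θ (ic P.toPre _ 2 0 (R (P.mulH 0 _ _ (fun z => opL.flip ((sS hη s).1 z)) x))) := by
  refine ext_inner_right ℝ fun v => ?_
  induction x, v using H_ind₂ with
  | hP => exact isClosed_eq (by fun_prop) (by fun_prop)
  | h α ν =>
    let τ : Sec I (triv M (Eu κ)) := ⟨fun z => opL.flip ((sS hη s).1 z) (α.1 z),
      RepT_mem (rep_mulH (F := P.toPre) (k := 0) (cb_ms hη s) (Maps.triv _)) α⟩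
    let σ := sS (sm_wt (cb_sm hθ) hw.sm hℓ) ν
    obtain ⟨r1, r2⟩ := a₀.res hb h.bmp h.sk (al_sec τ)
    have r3 := is_of_Qw hw h0 a₀ a (hb 0).1 r2 (y := R (P.mulH 0 _ _
      (fun z => opL.flip ((sS hη s).1 z)) (P.toH 0 _ α))) (by
        rw [hR, funext r1.2.2]; exact (Is.toH α).mulH (cb_ms hη s) (Maps.triv _))
    have r4 := sym_res h σ τ
    rw [hμ, integral_wm hℓ.continuous, integral_wm hℓ.continuous] at r4
    rw [inner_flp, real_inner_comm, real_inner_comm (P.toH 0 _ ν),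
      Cyc79.is_inner ((r3.incl (Nat.zero_le 2)).smulH hθ), hw.integral,
      Cyc79.is_inner (he _ _ _ _ (is_repT hw (rep_ew hw).1 (Is.toH α)))]
    convert r4 using 3 with z z
    · rw [real_inner_comm, inner_aL, hΛ]
      simp only [kr, σ, τ, sS, map_smul, smul_apply, real_inner_smul_left,
        real_inner_smul_right, smul_eq_mul, ContinuousLinearMap.flip_apply]
      field_simp
    · simp only [σ, sS, Pi.mul_apply, real_inner_smul_left, real_inner_smul_right, smul_eq_mul]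
      field_simp

end one

variable {J : Type} {X Y : J → Type} [∀ i, NormedAddCommGroup (X i)] [∀ i, NormedSpace ℝ (X i)]
  {D : Dm I M ι X Y} {G : ∀ i, X i → Fr I M ι} {A : ∀ i, Y i → ι → M → En κ} {j : ℕ}

theorem Mo.up (h : Mo D G A j) {N : Type} [NormedAddCommGroup N] [NormedSpace ℝ N] {f : J → M → N}
    (hf : UB D.P f) : UB (fun i => (G i (D.pt i (D.y₀ i))).toPre) f :=
  let ⟨_, s1, s2⟩ := h.mix
  ub_mix (fun i => s2 i _ (D.mem i _)) (fun a b => (s1 a b).sz.ub) hf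

theorem Mo.bd0 (h : Mo D G A j) : ∃ K, ∀ i x,
    ‖x‖ ≤ K * ‖Ql (D.P i) (G i (D.pt i (D.y₀ i))) (A i (D.y₀ i)) 0 x‖ := by
  obtain ⟨R, r1, r2⟩ := h.exists_R (l := 0) (h.hj.trans' (by omega))
  obtain ⟨K, hK⟩ := Dm.UC.bv r1
  refine ⟨K, fun i x => ?_⟩
  conv_lhs => rw [← (h.bij i (D.y₀ i) 0).1 (r2 i _ (Ql _ _ _ 0 x))]
  exact ContinuousLinearMap.le_of_opNorm_le _ (hK i) _

/-- **the kernel operator** -/
theorem Mo.exists_N (cac : CacStmt I M ι) (ev : EvStmt I M ι) (h : Mo D G A j) (u : Uw (Eu κ) D G)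
    (ok : ∀ i, Ok (G i (D.pt i (D.y₀ i))) (A i (D.y₀ i))) {φ θ : J → M → ℝ} (hφ : UB D.P φ)
    (hθ : UB D.P θ) {s t : ℝ} (hst : s < t) (e0 : ∀ i z, φ i z < t → θ i z = 0) :
    ∃ N : ∀ i, D.H (HS κ) 0 i →L[ℝ] D.H (Fm κ (u.Du.H (Eu κ) 0 i)) 2 i, Bv N ∧
      ∀ i (R : u.Du.H (Eu κ) 0 i →L[ℝ] u.Du.H (Eu κ) 2 i),
        (∀ f, Ql (u.Du.P i) (G i (D.pt i (D.y₀ i))) (A i (D.y₀ i)) 0 (R f) = f) →
        ∀ x α, Is (D.P i) 0 _ x α → (D.P i).Cb α → (∀ z, s < φ i z → α z = 0) → ∀ k,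
          jj _ (u.F i) (D.F i) 2 (ctH κ _ (D.P i) 2 k (N i x)) =
            smulH (u.Du.P i) 2 _ (fun z => θ i z * θ i z)
              (R ((u.Du.P i).mulH 0 _ _ (fun z => opL (α z)) k)) := by
  obtain ⟨η, η1, η2, η3, η4⟩ := exists_ucut hφ.neg (show -((2 * s + t) / 3) < -s by linarith)
  obtain ⟨ζ, ζ1, ζ2, ζ3, ζ4⟩ :=
    exists_ucut hφ.neg (show -((s + 2 * t) / 3) < -((2 * s + t) / 3) by linarith)
  obtain ⟨χ, χ1, χ2, χ3, χ4⟩ := exists_ucut hφ (show (s + 2 * t) / 3 < t by linarith)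
  obtain ⟨S, s1, s2⟩ := h.mix
  obtain ⟨K, hK⟩ := h.bd0
  obtain ⟨Γ, g1, g2⟩ := cac (Eu κ) J D.F _ D.C _ _ θ χ K D.tame (fun i => s2 i _ (D.mem i _))
    (fun a b => (s1 a b).sz.ub) (fun a => (h.dv a).sz.ub) (fun a => (h.sz a).ub) hθ χ1
    (fun i x hx => χ3 i x (closure_minimal (s := support (θ i)) (fun z hz => not_lt.1 fun e =>
      hz (e0 i z e)) (isClosed_le continuous_const (hφ.sm i).continuous) hx)) hK
  obtain ⟨R, r1, r2⟩ := h.exists_R (l := 0) (h.hj.trans' (by omega))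
  obtain ⟨U, c, c0, hU⟩ := u.wu
  obtain ⟨L, hL⟩ := u.lc.us.sz.ub
  obtain ⟨C₁, k1⟩ := h.up ζ1
  obtain ⟨C₂, k2⟩ := h.up η1
  have n1 : 0 ≤ Fintype.card ι * (C₁ 2 ^ 2 + (1 + |u.C 0|) * |C₁ 2|) := by positivity
  have n2 : 0 ≤ Fintype.card ι * (C₂ 2 ^ 2 + (1 + |u.C 0|) * |C₂ 2|) := by positivity
  choose Λ l1 l2 using fun i => exists_Λ (P := D.F i) (u.wt i).sm (hL i).1 (ok i) (χ1.sm i)
    (η1.sm i) (sqrt_nonneg _) (sup_kr (u.wt i) (hL i).1 (u.μ i _) (ok i) (hU i).1 c0 (hU i).2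
      (CB_bound ((hL i).2 0)) ((Mp86.l4_of_tame (u.tm0 i)).mono
        ((le_abs_self _).trans (le_add_of_nonneg_right zero_le_one))) (by positivity)
      ((cu_of_cbs (u.tm0 i) (k1 i)).mono (le_add_of_nonneg_right (add_nonneg n2 zero_le_one)))
      ((cu_of_cbs (u.tm0 i) (k2 i)).mono (by linarith)) (by positivity) (ζ4 i) (η4 i) (χ1.sm i)
      (χ4 i) (fun x hx => χ2 i x (by_contra fun e => hx (ζ2 i x (by linarith))))
      fun x hx => ζ3 i x (by_contra fun e => hx (η2 i x (by linarith))))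
  choose e e1 e2 using fun i => ev κ κ (HS κ) (D.H (Eu κ) 0 i) (u.F i) (aL κ)
  let f := fun i => (flp κ κ (u.Du.P i) (D.P i) 0 0).toContinuousLinearMap
  have b1 : Bv f := ⟨1, fun i => LinearIsometry.norm_toContinuousLinearMap_le _⟩
  have b2 : Bv fun i => (e i).flip (Λ i) := ⟨_, fun i => ((e i).flip.le_opNorm _).trans
    (mul_le_mul ((e i).opNorm_flip.trans_le (e1 i)) (l2 i) (norm_nonneg _) (by positivity))⟩
  have b3 : Bv fun i => ew (HS κ) (u.F i) (D.F i) (u.ψ i) := ⟨1, fun i => (rep_ew (u.wt i)).2⟩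
  have b4 : Bv fun i => lft (u.Du.H (Eu κ) 0 i) (Γ i) := g1.of_le fun i => opNorm_lft_le _
  refine ⟨_, b4.comp (b1.comp (b2.comp b3)), fun i R₀ hR x α hx hα h0 k => ?_⟩
  have a₀ := (h.uw u).ac i (D.y₀ i)
  induction k using H_ind with
  | hP => exact isClosed_eq (by fun_prop) (by fun_prop)
  | h σ =>
    have h1 := hx.mulH (cb_ms (η1.sm i) σ) (Maps.triv _)
    have h2 : ∀ z, opL.flip ((sS (η1.sm i) σ).1 z) (α z) = opL (α z) (σ.1 z) := fun z => by
      by_cases e : s < φ i z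
      · simp [h0 z e]
      · simp [sS, η3 i z (by linarith)]
    simp only [ContinuousLinearMap.comp_apply, ctH_lft, f, LinearIsometry.coe_toContinuousLinearMap,
      ContinuousLinearMap.flip_apply]
    rw [ker_eq (u.wt i) (u.pos i) (hL i).1 (u.μ i _) (ok i) a₀ (h.ac i _) ((h.uw u).bij i _)
      (χ1.cb i) (η1.sm i) (l1 i) (e2 i) (r2 i _), g2,
      jj_smulH (θ := fun z => θ i z * θ i z) (u.wt i) (u.pos i) ((hθ.smul hθ).cb i)]
    · refine congrArg _ (((h.uw u).bij i (D.y₀ i) 0).1 ?_)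
      rw [hR, ← jj_Q (u.wt i) (u.pos i) a₀ (h.ac i _), r2]
      exact ((is_jj (u.wt i) (u.pos i)).2 h1).unique (is_eq' ((Is.toH σ).mulH
        ((u.wt i).Cb.1 (Cb_clm opL hα)) (Maps.triv _)) h2)
    · rw [r2]
      refine (h1.smulH (χ1.cb i)).unique (is_eq' Is.zero fun z => ?_)
      by_cases e : s < φ i z
      · simp [h0 z e]
      · simp [χ2 i z (by linarith)]

end Crest.Agent.X212.Cys97
end
end

-- ▼ part X212/Cys97/Gain
section

/-!
# Row 212, CYC-SM (helper97): the variation of the base field lies in the weighted spaces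
-/

set_option autoImplicit false
set_option linter.unusedSectionVars false
set_option maxSynthPendingDepth 3
noncomputable section
open scoped Manifold ContDiff Topology InnerProductSpace BoundedContinuousFunction
open MeasureTheory Set Function Filter

namespace Crest.Agent.X212.Cys97
open An Sob92 Prm93 Wz78 Mon62 Cyc79 Ten12 Dm
open Ell97 (UB)
open Nk89 (WtP wm)

variable {E : Type} [NormedAddCommGroup E] [NormedSpace ℝ E] [FiniteDimensional ℝ E]
  [MeasurableSpace E] [BorelSpace E]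
  {HM : Type} [TopologicalSpace HM] {I : ModelWithCorners ℝ E HM} [I.Boundaryless]
  {M : Type} [TopologicalSpace M] [ChartedSpace HM M] [IsManifold I ∞ M]
  [MeasurableSpace M] [T2Space M] [BorelSpace M] [SecondCountableTopology M] {ι : Type} [Fintype ι]
  {κ : Type} [Fintype κ] [DecidableEq κ]
  {V : Type} [NormedAddCommGroup V] [InnerProductSpace ℝ V] [CompleteSpace V]
  {K : Type} [NormedAddCommGroup K] [InnerProductSpace ℝ K] [CompleteSpace K]

section one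
variable {P P₀ : Fr I M ι} {u v : M → V} {l : ℕ} {ψ : M → ℝ}

variable (V) in
/-- the inclusion or a derivative -/
def DoH (P : Pre I M ι) (l : ℕ) : Option ι → HT P V (l + 1) →L[ℝ] HT P V l
  | none => ic P V (l + 1) l
  | some b => DH P l _ b

theorem sm_Do (P : Pre I M ι) (hu : Sm I u) : ∀ a, Sm I (Do P a u)
  | none => hu
  | some a => P.sm_D hu a

theorem is_DoH {x : HT P.toPre V (l + 1)} (hx : Is P.toPre (l + 1) _ x u) (hu : Sm I u) :
    ∀ a, Is P.toPre l _ (DoH V P.toPre l a x) (Do P.toPre a u)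
  | none => hx.incl l.le_succ
  | some a => hx.DH hu a

theorem do_wt (h : WtP P₀.toPre P.toPre ψ) : ∀ a (u : M → V), Do P.toPre a u = Do P₀.toPre a u
  | none, _ => rfl
  | some a, u => h.D a u

theorem do_congr {P : Pre I M ι} {z : M} (h : u =ᶠ[𝓝 z] v) : ∀ a, Do P a u =ᶠ[𝓝 z] Do P a v
  | none => h
  | some _ => h.eventuallyEq_nhds.mono fun _ hy => dv_congr hy

end one

variable {J : Type} {X Y : J → Type} [∀ i, NormedAddCommGroup (X i)] [∀ i, NormedSpace ℝ (X i)]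
  {D : Dm I M ι X Y} {G : ∀ i, X i → Fr I M ι} {A : ∀ i, Y i → ι → M → En κ} {j : ℕ}

theorem bv_DoH (l : ℕ) : ∀ a, Bv fun i => DoH V (D.P i) l a
  | none => bv_ic l.le_succ
  | some a => bv_DH l a

theorem uc_fbH {Z : J → Type} [∀ i, NormedAddCommGroup (Z i)] [∀ i, InnerProductSpace ℝ (Z i)]
    [∀ i, CompleteSpace (Z i)] {l : ℕ} {S : ∀ i, X i → K →L[ℝ] Z i}
    {δ : ∀ i, X i → D.H (Fm κ (Z i)) l i} (hS : UC D.toRg S) (hδ : UC D.toRg δ) :
    UC D.toRg fun i x => fbH κ (Z i) K (D.P i) l (ContinuousLinearMap.adjoint (S i x)) (δ i x) :=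
  UC.bil (β := fun i => fbH κ (Z i) K (D.P i) l)
    ⟨1, fun _ => ContinuousLinearMap.opNorm_le_bound₂ _ zero_le_one fun R u => by
      rw [one_mul]; exact norm_fbH_le R u⟩
    (hS.clm (L := fun i => adjL K (Z i)) ⟨1, fun _ => LinearMap.mkContinuous_norm_le _ zero_le_one _⟩)
    hδ

theorem uc_lft {l l' : ℕ} {R : ∀ i, X i → D.H (Eu κ) l i →L[ℝ] D.H (Eu κ) l' i}
    {δ : ∀ i, X i → D.H (Fm κ K) l i} (hR : UC D.toRg R) (hδ : UC D.toRg δ) :
    UC D.toRg fun i x => lft K (R i x) (δ i x) :=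
  UC.bil (β := fun i => (lft K : (D.H (Eu κ) l i →L[ℝ] D.H (Eu κ) l' i) →L[ℝ] _))
    ⟨1, fun _ => norm_lft⟩ hR hδ

theorem rebase0 {w : ∀ i, Y i → M → V} (hj : 4 ≤ j) (h : D.A0 False j w) :
    ∃ δ : ∀ i, X i → D.H V 0 i, UC D.toRg δ ∧
      ∀ i y, Is (D.P i) 0 _ (δ i (D.pt i y)) fun z => w i y z - w i (D.y₀ i) z :=
  let ⟨_, a, b⟩ := h.rebase
  ⟨_, a.clm (bv_ic j.zero_le), fun i y => is_eq' ((Is.val (D.sup i) hj _).incl j.zero_le)
    fun z => by rw [b i y z, add_sub_cancel_left]⟩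

variable (A) in
/-- the data -/
structure St (u : Uw (Eu κ) D G) (j : ℕ) (g : ∀ i, Y i → M → HS κ)
    (π : ∀ i, K →L[ℝ] u.Du.H (Eu κ) 0 i) (φ : J → M → ℝ) : Prop where
  hj : 8 ≤ j
  mo : Mo D G A j
  ff : D.FF G
  ok : ∀ i, Ok (G i (D.pt i (D.y₀ i))) (A i (D.y₀ i))
  hg : D.A0 False j g
  hπ : Bv π
  hφ : UB D.P φ
  h0 : ∀ i y z, g i y z ≠ 0 → φ i z ≤ 0
  dns : ∀ i, Dense {k | ∃ s, π i k = (u.F i).toH 0 _ s}

variable {u : Uw (Eu κ) D G} {g : ∀ i, Y i → M → HS κ} {π : ∀ i, K →L[ℝ] u.Du.H (Eu κ) 0 i}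
  {φ θ : J → M → ℝ} {t : ℝ}

variable (A g π) in
/-- the variation of `θ G g` is Hilbert-Schmidt into the weighted space -/
def Dl (θ : J → M → ℝ) (l : ℕ) : Prop :=
  ∃ δ : ∀ i, X i → D.H (Fm κ K) l i, UC D.toRg δ ∧ ∀ i y k (s : Sec I (triv M (Eu κ))),
    π i k = (u.F i).toH 0 _ s → Is (D.P i) l _ (ctH κ K (D.P i) l k (δ i (D.pt i y)))
      fun z => θ i z • (uu D G A g i y s.1 z - uu D G A g i (D.y₀ i) s.1 z)

variable (A g π) in
/-- `b` is the field of `θ G g` -/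
def Fl (θ : J → M → ℝ) (b : ∀ i, Y i → M → Fm κ K) : Prop := ∀ i y, (D.P i).Cb (b i y) ∧
  ∀ k (s : Sec I (triv M (Eu κ))), π i k = (u.F i).toH 0 _ s →
    ∀ z, ct k (b i y z) = θ i z • uu D G A g i y s.1 z

namespace St
variable (h : St A u j g π φ)
include h

theorem h4 : 4 ≤ j := h.hj.trans' (by omega)

theorem res (i : J) (y : Y i) (s : Sec I (triv M (Eu κ))) :
    (G i (D.pt i y)).IsRes (A i y) (fun z => opL (g i y z) (s.1 z)) (uu D G A g i y s.1) ∧
      Al (u.F i) (uu D G A g i y s.1) := (h.mo.uw u).res_uu (u.a0 h.h4 h.hg) i y s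

theorem near (cac : CacStmt I M ι) (ev : EvStmt I M ι) (ht : 0 < t) (hθ : UB D.P θ)
    (e0 : ∀ i z, φ i z < t → θ i z = 0) {R : ∀ i, u.Du.H (Eu κ) 0 i →L[ℝ] u.Du.H (Eu κ) 2 i}
    (hR : ∀ i f, Ql (u.Du.P i) (G i (D.pt i (D.y₀ i))) (A i (D.y₀ i)) 0 (R i f) = f)
    {S : ∀ i, X i → K →L[ℝ] u.Du.H (Eu κ) 0 i} (hS : UC D.toRg S)
    {a : ∀ i, X i → D.H (HS κ) 0 i} (ha : UC D.toRg a) :
    ∃ δ : ∀ i, X i → D.H (Fm κ K) 2 i, UC D.toRg δ ∧ ∀ i x k α, Is (D.P i) 0 _ (a i x) α →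
      (D.P i).Cb α → (∀ z, t / 2 < φ i z → α z = 0) →
        jj _ (u.F i) (D.F i) 2 (ctH κ K (D.P i) 2 k (δ i x)) =
          smulH (u.Du.P i) 2 _ (fun z => θ i z * θ i z)
            (R i ((u.Du.P i).mulH 0 _ _ (fun z => opL (α z)) (S i x k))) := by
  obtain ⟨N, n1, n2⟩ := h.mo.exists_N cac ev u h.ok h.hφ hθ (half_lt_self ht) e0
  refine ⟨_, uc_fbH hS (ha.clm n1), fun i x k α a1 a2 a3 => ?_⟩
  rw [ctH_fbH, ContinuousLinearMap.adjoint_adjoint, n2 i _ (hR i) _ _ a1 a2 a3]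

theorem far (ev : EvStmt I M ι) (hθ : UB D.P θ) {R : ∀ i, u.Du.H (Eu κ) 0 i →L[ℝ] u.Du.H (Eu κ) 2 i}
    (hR : ∀ i f, Ql (u.Du.P i) (G i (D.pt i (D.y₀ i))) (A i (D.y₀ i)) 0 (R i f) = f)
    {S : ∀ i, X i → K →L[ℝ] u.Du.H (Eu κ) 4 i} (hS : UC D.toRg S)
    {a : ∀ i, X i → D.H (HS κ) 0 i} (ha : UC D.toRg a) :
    ∃ δ : ∀ i, X i → D.H (Fm κ K) 2 i, UC D.toRg δ ∧ ∀ i x k α v, Is (D.P i) 0 _ (a i x) α →
      Is (u.Du.P i) 4 _ (S i x k) v → Continuous v → ∃ w, Is (u.Du.P i) 0 _ w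
        (fun z => opL (α z) (v z)) ∧ jj _ (u.F i) (D.F i) 2 (ctH κ K (D.P i) 2 k (δ i x)) =
          smulH (u.Du.P i) 2 _ (θ i) (R i w) := by
  obtain ⟨R', r1, r2⟩ := h.mo.exists_R (l := 0) (h.hj.trans' (by omega))
  choose e e1 e2 using fun i => ev κ κ (HS κ) K (D.F i) opL
  have s1 : UC D.toRg fun i x => valB (u.Du.sup i) ∘L S i x :=
    (UC.const (bv_valB (D := u.Du))).comp hS
  refine ⟨_, uc_lft (UC.const ((bv_smulH hθ 2).comp (Dm.UC.bv r1))) (UC.bil ⟨_, e1⟩ ha s1),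
    fun i x k α v a1 a2 a3 => ⟨_, (is_jj (u.wt i) (u.pos i)).2 (is_eq'
      (e2 i _ (valB (u.Du.sup i) ∘L S i x) k _ a1) fun z =>
      congrArg _ (congrFun (a2.val_eq (u.Du.sup i) le_rfl a3) z).symm), ?_⟩⟩
  rw [ctH_lft, ContinuousLinearMap.comp_apply, jj_smulH (u.wt i) (u.pos i) (hθ.cb i)]
  refine congrArg _ (((h.mo.uw u).bij i (D.y₀ i) 0).1 ?_)
  rw [hR, ← jj_Q (u.wt i) (u.pos i) ((h.mo.uw u).ac i _) (h.mo.ac i _), r2]

theorem start (cac : CacStmt I M ι) (ev : EvStmt I M ι) (dn : DnStmt I M ι) (ht : 0 < t)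
    (hθ : UB D.P θ) (e0 : ∀ i z, φ i z < t → θ i z = 0) : Dl A g π (fun i z => θ i z * θ i z) 2 := by
  have hj := h.hj
  obtain ⟨c, c1, c2⟩ := dn κ J X Y D G A j hj h.ff h.mo.a0
  choose a a1 a2 using fun s => rebase0 le_rfl (c1 s)
  obtain ⟨γ, γ1, γ2⟩ := rebase0 h.h4 h.hg
  obtain ⟨η, η1, η2, η3, -⟩ := exists_ucut h.hφ (show t / 4 < t / 2 by linarith)
  obtain ⟨χ, χ1, χ2, χ3, -⟩ := exists_ucut h.hφ (show t / 16 < t / 8 by linarith)
  obtain ⟨T, t1, t2⟩ := (h.mo.uw u).ch0 (u.a0 h.h4 h.hg) h.hπ (UB.const 1)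
  obtain ⟨T', t3, t4⟩ := (h.mo.uw u).ch (u.a0 h.h4 h.hg) h.hπ (u.ub.2 h.hφ) h.h0 4 (by omega)
    (show 0 < t / 16 by linarith) (u.ub.2 χ1) fun i z e => χ2 i z e.le
  obtain ⟨R, -, r4⟩ := (h.mo.uw u).exists_R (l := 0) (by omega)
  have η0 := (UB.const 1).sub η1
  have θ2 : UB D.P fun i z => θ i z * θ i z := hθ.smul hθ
  obtain ⟨δ₁, d1, d2⟩ := h.near cac ev ht hθ e0 (fun i => r4 i _) (UC.const h.hπ) γ1
  choose δ₂ d3 d4 using fun s : Option ι × Option ι => h.near cac ev ht hθ e0 (fun i => r4 i _)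
    ((UC.const ((bv_DoH (D := u.Du) 0 s.1).comp (bv_DoH 1 s.2))).comp t1)
      ((a1 s).clm (bv_smulH η0 0))
  choose δ₃ d5 d6 using fun s : Option ι × Option ι => h.far ev θ2 (fun i => r4 i _)
    ((UC.const ((bv_DoH (D := u.Du) 4 s.1).comp (bv_DoH 5 s.2))).comp t3)
      ((a1 s).clm (bv_smulH η1 0))
  refine ⟨_, (d1.sub (UC.sum d3)).sub (UC.sum d5), fun i y k σ hk => (is_jj (u.wt i) (u.pos i)).1 ?_⟩
  have a₀ := (h.mo.uw u).ac i (D.y₀ i)
  obtain ⟨p1, p2⟩ := h.res i y σ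
  obtain ⟨q1, q2⟩ := h.res i (D.y₀ i) σ
  have cb : ∀ s, (D.P i).Cb fun z => c s i y z - c s i (D.y₀ i) z := fun s =>
    Cb_sub ((c1 s).sz.cb i y) ((c1 s).sz.cb i _)
  have s3 := Wrd81.sm_smul (χ1.sm i) p2.1
  choose w w1 w2 using fun s : Option ι × Option ι => d6 s i (D.pt i y) k _ _
    ((a2 s i y).smulH (η1.cb i)) (is_DoH (is_DoH (t4 i y k σ hk) s3 s.2) (sm_Do _ s3 _) s.1)
      (sm_Do _ (sm_Do _ s3 _) _).continuous
  have f1 := d2 i _ k _ (γ2 i y) (Cb_sub (h.hg.sz.cb i y) (h.hg.sz.cb i _)) fun z e => by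
    simp only [show ∀ y, g i y z = 0 from fun y => by_contra fun e' => by
      linarith [h.h0 i y z e'], sub_zero]
  have f2 := fun s => d4 s i _ k _ ((a2 s i y).smulH (η0.cb i)) (Cb_smul (η0.cb i) (cb s))
    fun z e => by simp only [η3 i z e.le, sub_self, zero_smul]
  simp only [map_sub, map_sum, f1, f2, w2]
  simp only [← map_sum, ← map_sub]
  refine Is.smulH ((u.wt i).Cb.1 (θ2.cb i))
    (a₀.is_of_Q ((h.mo.uw u).bij i (D.y₀ i) 0).1 (p2.sub q2) ?_)
  rw [r4, hk]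
  have s4 : Sm I fun z => (1 : ℝ) • uu D G A g i y σ.1 z := Wrd81.sm_smul contMDiff_const p2.1
  have g1 := (Is.toH (F := u.Du.P i) (k := 0) σ).mulH ((u.wt i).Cb.1 (Cb_clm opL
    (Cb_sub (h.hg.sz.cb i y) (h.hg.sz.cb i (D.y₀ i))))) (Maps.triv (W := Eu κ) _)
  have g2 := is_sum Finset.univ fun (s : Option ι × Option ι) _ =>
    (is_DoH (is_DoH (t2 i y k σ hk) s4 s.2) (sm_Do _ s4 _) s.1).mulH
      ((u.wt i).Cb.1 (Cb_clm opL (Cb_smul (η0.cb i) (cb s)))) (Maps.triv (W := Eu κ) _)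
  simp only [ContinuousLinearMap.comp_apply]
  refine is_eq' ((g1.sub g2).sub (is_sum Finset.univ fun s _ => w1 s)) fun z => ?_
  have d3 : ∀ s : Option ι × Option ι, η i z • Do (u.F i).toPre s.1 (Do (u.F i).toPre s.2
      fun z => χ i z • uu D G A g i y σ.1 z) z = η i z • Do (u.F i).toPre s.1
        (Do (u.F i).toPre s.2 (uu D G A g i y σ.1)) z := fun s => by
    by_cases e : φ i z ≤ t / 4
    · simp only [η2 i z e, zero_smul]
    · refine congrArg _ (do_congr (do_congr ?_ _) _).self_of_nhds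
      filter_upwards [(isOpen_lt continuous_const (h.hφ.sm i).continuous).mem_nhds (not_le.1 e)]
        with x hx
      rw [χ3 i x (by linarith), one_smul]
  have d4 := p1.2.2 z
  rw [c2 i y _ p2.1] at d4
  rw [q_sub a₀.sm p2.1 q2.1, q1.2.2, c2 i _ _ p2.1, eq_sub_of_add_eq d4]
  have d5 : ∀ (r : ℝ) ξ (v : Eu κ), opL (r • ξ : HS κ) v = opL ξ (r • v) := fun r ξ v => by simp
  simp only [Pi.sub_apply, one_smul, d5, show uu u.Du G A g = uu D G A g from rfl, d3,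
    do_wt (u.wt i)]
  simp only [sub_smul, one_smul, map_sub, sub_apply, Finset.sum_sub_distrib]
  abel

variable (hb : ∀ {θ : J → M → ℝ} {t : ℝ}, 0 < t → UB D.P θ → (∀ i z, φ i z < t → θ i z = 0) →
  ∃ b, Fl A g π θ b)

theorem ub {b : ∀ i, Y i → M → Fm κ K} (ht : 0 < t) (hθ : UB D.P θ)
    (e0 : ∀ i z, φ i z < t → θ i z = 0) (hb : Fl A g π θ b) : UB D.P fun i => b i (D.y₀ i) :=
  u.ub.1 ((h.mo.uw u).ub_base (u.a0 h.h4 h.hg) h.hπ (u.ub.2 h.hφ) h.h0 ht (u.ub.2 hθ) e0 h.dns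
    (fun i => cb_sm (hb i _).1) fun i => (hb i _).2)

include hb

theorem gain (cac : CacStmt I M ι) (ev : EvStmt I M ι) (dn : DnStmt I M ι) (l : ℕ) (hl : l + 1 ≤ j) :
    ∀ {θ : J → M → ℝ} {t : ℝ}, 0 < t → UB D.P θ → (∀ i z, φ i z < t → θ i z = 0) →
      Dl A g π θ (l + 2) := by
  induction l with
  | zero =>
    intro θ t ht hθ e0
    obtain ⟨χ, c1, c2, c3, -⟩ := exists_ucut h.hφ (half_lt_self ht)
    obtain ⟨δ, d1, d2⟩ := h.start cac ev dn (half_pos ht) c1 fun i z e => c2 i z e.le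
    refine ⟨_, uc_lft (UC.const (bv_smulH hθ 2)) d1, fun i y k s e => ?_⟩
    rw [ctH_lft]
    refine is_eq' ((d2 i y k s e).smulH (hθ.cb i)) fun z => ?_
    by_cases e1 : φ i z < t
    · simp only [e0 i z e1, zero_smul]
    · simp only [c3 i z (not_lt.1 e1), one_mul, one_smul]
  | succ l ih =>
    intro θ t ht hθ e0
    have hj := h.hj
    obtain ⟨χ, c1, c2, c3, -⟩ := exists_ucut h.hφ (show t / 3 < t / 2 by linarith)
    have c4 := fun i z (e : φ i z < t / 3) => c2 i z e.le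
    have t3 : 0 < t / 3 := by linarith
    obtain ⟨δ, d1, d2⟩ := ih (by omega) t3 c1 c4
    obtain ⟨b, b1⟩ := hb t3 c1 c4
    obtain ⟨R, r1, r2⟩ := h.mo.exists_R hl
    obtain ⟨C, k1, k2⟩ := h.mo.exists_cm (l := l + 1) (by omega) hθ
    obtain ⟨m, rfl⟩ : ∃ m, j = m + 1 := ⟨j - 1, by omega⟩
    have b2 := h.ub t3 c1 c4 b1
    have loc := fun i y (v : M → Eu κ) z => q_loc (F := G i (D.pt i y)) (A := A i y) (u := v)
      (h.hφ.sm i).continuous (half_lt_self ht) (e0 i) (fun z e => c3 i z e.le) z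
    have hom : ∀ i y (s : Sec I (triv M (Eu κ))) z, θ i z • (uu D G A g i y s.1 z + lap I
        (G i (D.pt i y)).e (G i (D.pt i y)).dv (A i y) (uu D G A g i y s.1) z) = 0 :=
      fun i y s z => by
        rw [(h.res i y s).1.2.2]
        by_cases e1 : g i y z = 0
        · simp [e1]
        · rw [e0 i z ((h.h0 i y z e1).trans_lt ht), zero_smul]
    have ctr : ∀ i y k (s : Sec I (triv M (Eu κ))), π i k = (u.F i).toH 0 _ s → ∀ z,
        ct k (θ i z • (b i (D.y₀ i) z + lap I (G i (D.pt i y)).e (G i (D.pt i y)).dv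
          (aA K (A i y)) (b i (D.y₀ i)) z)) = θ i z • (uu D G A g i (D.y₀ i) s.1 z + lap I
            (G i (D.pt i y)).e (G i (D.pt i y)).dv (A i y) (uu D G A g i (D.y₀ i) s.1) z) :=
      fun i y k s e z => by
        rw [map_smul, map_add, ← ct_lap (h.mo.ac i y).sm (b2.sm i), funext ((b1 i _).2 k s e),
          (b1 i _).2 k s e, loc]
    have m4 : 4 ≤ m := by omega
    obtain ⟨ρ, ρ1, ρ2⟩ := (((Lc.fixed hθ).smul m4 ((A0.fixed b2).add ((A0.fixed b2).lap h.ff m4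
      (A := fun i y => aA K (A i y)) fun c => ((h.mo.a0 c).toMul (amp K ∘L opL)
        h.mo.hj).congr fun i y x => by simp [aA]))).pure_of_base (ε' := True)
          (A0.zero.congr fun i _ z => ext_dense (h.dns i) fun k ⟨s, e⟩ => by
            rw [ctr i _ k s e, hom, map_zero])).pure
    refine ⟨_, uc_lft r1 ((uc_lft k1 d1).sub (ρ1.clm (bv_ic (show l + 1 ≤ m by omega)))),
      fun i y k s e => ?_⟩
    obtain ⟨p1, p2⟩ := h.res i y s
    obtain ⟨q1, q2⟩ := h.res i (D.y₀ i) s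
    have a := h.mo.ac i y
    have s1 := (p2.sub q2).1
    rw [ctH_lft]
    refine is_of_Qw (u.wt i) (u.pos i) ((h.mo.uw u).ac i y) a ((h.mo.uw u).bij i y _).1
      ((p2.sub q2).smul ((u.wt i).Cb.1 (hθ.cb i))) ?_
    rw [r2, map_sub, ctH_lft]
    refine is_eq' ((k2 i y _ _ (Wrd81.sm_smul (c1.sm i) s1) (d2 i y k s e)).sub
      (Ten12.Is.ctH ((Is.val (D.sup i) m4 _).incl (by omega)) k)) fun z => ?_
    rw [q_smul a.sm (hθ.sm i) s1, q_sub a.sm p2.1 q2.1, smul_sub, hom, Pi.sub_apply,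
      cm_cut (h.hφ.sm i).continuous (half_lt_self ht) (e0 i) fun z e => c3 i z e.le, ← vl, ← ρ2,
      ctr i y k s e]
    abel

/-- **the base fields extend smoothly to the Banach model** -/
theorem base (cac : CacStmt I M ι) (ev : EvStmt I M ι) (dn : DnStmt I M ι)
    {b : ∀ i, Y i → M → Fm κ K} (ht : 0 < t) (hθ : UB D.P θ)
    (e0 : ∀ i z, φ i z < t → θ i z = 0) (b1 : Fl A g π θ b) : D.A0 False j b := by
  have hj := h.hj
  obtain ⟨l, rfl⟩ : ∃ l, j = l + 2 := ⟨j - 2, by omega⟩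
  obtain ⟨δ, d1, d2⟩ := h.gain hb cac ev dn l (by omega) ht hθ e0
  have b2 := h.ub ht hθ e0 b1
  refine ⟨⟨fun i y => (b1 i y).1, b2⟩, _, δ, b2, False.elim, d1, fun i y x => ?_⟩
  have c1 : Continuous fun z => b i y z - b i (D.y₀ i) z :=
    (cb_sm (b1 i y).1).continuous.sub (b2.sm i).continuous
  rw [vl, (is_dense (h.dns i) c1 fun k ⟨s, e⟩ => is_eq' (d2 i y k s e) fun z => by
    rw [map_sub, (b1 i _).2 k s e, (b1 i _).2 k s e, smul_sub]).val_eq (D.sup i) h.h4 c1,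
    add_sub_cancel]

end St

end Crest.Agent.X212.Cys97
end
end

-- ▼ part X212/Cac9/Main
section

/-!
# Row 212, CYS-CAC (helper9): the Caccioppoli estimate `L² → L²₂`
-/

set_option autoImplicit false
set_option linter.unusedSectionVars false
noncomputable section
open scoped Manifold ContDiff Topology InnerProductSpace
open MeasureTheory Set Function Filter

namespace Crest.Agent.X212.Cac9
open An Sob92 Prm93 Mon62 Cys97
open Ell97 (UB)
open Wrd81 (lap1 cov md)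

theorem ext {S G H : Type} [AddCommGroup S] [Module ℝ S] [NormedAddCommGroup G]
    [InnerProductSpace ℝ G] [CompleteSpace G] [NormedAddCommGroup H] [NormedSpace ℝ H]
    [CompleteSpace H] (f : S →ₗ[ℝ] H) (e : S →ₗ[ℝ] G) {C : ℝ} (hC : 0 ≤ C)
    (h : ∀ x, ‖f x‖ ≤ C * ‖e x‖) : ∃ Γ : G →L[ℝ] H, ‖Γ‖ ≤ C ∧ ∀ x, Γ (e x) = f x := by
  let K := (LinearMap.range e).topologicalClosure
  let e' : S →ₗ[ℝ] K := e.codRestrict K fun x =>
    (LinearMap.range e).le_topologicalClosure ⟨x, rfl⟩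
  have hd : DenseRange e' := fun y => by
    rw [closure_subtype, ← range_comp]
    exact y.2
  refine ⟨f.extendOfNorm e' ∘L K.orthogonalProjectionOnto,
    (ContinuousLinearMap.opNorm_comp_le _ _).trans ?_, fun x => ?_⟩
  · simpa using mul_le_mul (LinearMap.opNorm_extendOfNorm_le hd hC h)
      K.orthogonalProjectionOnto_norm_le (by positivity) hC
  · exact (congrArg _ (K.orthogonalProjectionOnto_mem_subspace_eq_self (e' x))).trans
      (LinearMap.extendOfNorm_eq hd ⟨C, h⟩ x)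

variable {E : Type} [NormedAddCommGroup E] [NormedSpace ℝ E] [FiniteDimensional ℝ E]
  [MeasurableSpace E] [BorelSpace E]
  {HM : Type} [TopologicalSpace HM] {I : ModelWithCorners ℝ E HM} [I.Boundaryless]
  {M : Type} [TopologicalSpace M] [ChartedSpace HM M] [IsManifold I ∞ M]
  [MeasurableSpace M] [T2Space M] [BorelSpace M] [SecondCountableTopology M] {ι : Type} [Fintype ι]
  {J V : Type} [NormedAddCommGroup V] [InnerProductSpace ℝ V]
  {P F : J → Fr I M ι} {A : J → ι → M → V →L[ℝ] V} {S : ι → ι → J → M → ℝ} {θ θ' : J → M → ℝ}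

theorem bdd {N : Type} [NormedAddCommGroup N] [NormedSpace ℝ N] {κ : Type} [Fintype κ]
    {P : J → Pre I M ι} {f : κ → J → M → N} (h : ∀ k, UB P (f k)) :
    ∃ B, 0 ≤ B ∧ ∀ k i x, ‖f k i x‖ ≤ B :=
  let ⟨C, h⟩ := Ell97.UB.unif h
  ⟨|C 0|, abs_nonneg _, fun k i => CB_bound (CB_abs ((h i k).2 0))⟩

theorem D_sq (P : Pre I M ι) {θ : M → ℝ} (h : Sm I θ) (a : ι) :
    P.D a (fun z => θ z * θ z) = fun z => 2 * (θ z * P.D a θ z) := funext fun z =>
  (dv_smul (md h z) (md h z)).trans (by simp only [Pre.D_def, smul_eq_mul]; ring)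

theorem ts_sq (θ : M → ℝ) (u : M → V) : tsupport (fun z => (θ z * θ z) • u z) ⊆ tsupport θ :=
  closure_mono fun z hz h => hz (by simp [h])

/-- the equation for `θ² x` -/
theorem eqn (hm : ∀ i, Mix (P i).toPre (F i).toPre fun a b => S a b i)
    (hS : ∀ a b, UB (fun i => (P i).toPre) (S a b))
    (hd : ∀ a, UB (fun i => (P i).toPre) fun i => (F i).dv a)
    (hA : ∀ a, UB (fun i => (P i).toPre) fun i => A i a) (hθ : UB (fun i => (P i).toPre) θ)
    (h1 : ∀ i, ∀ x ∈ tsupport (θ i), θ' i x = 1) : ∃ C, 0 ≤ C ∧ ∀ i (x : M → V), Sm I x → ∀ z,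
      ‖lap1 (F i) (A i) (fun z => (θ i z * θ i z) • x z) z‖ ^ 2 ≤ C * (‖θ' i z • lap1 (F i) (A i) x z‖ ^ 2
        + ∑ b, ‖θ i z • (P i).D b x z‖ ^ 2 + ‖θ' i z • x z‖ ^ 2) := by
  have hD : ∀ {f : J → M → ℝ}, UB (fun i => (P i).toPre) f → ∀ a,
      UB (fun i => (P i).toPre) fun i => (F i).D a (f i) := fun hf a => by
    simp only [(hm _).D]
    exact .sum fun b => (hS a b).smul (hf.D b)
  have h2 := hθ.smul hθ
  obtain ⟨B1, b1, p1⟩ := bdd fun _ : Unit => h2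
  obtain ⟨B2, b2, p2⟩ := bdd fun b =>
    Ell97.UB.sum fun a => ((Ell97.UB.const (4 : ℝ)).smul (hD hθ a)).smul (hS a b)
  obtain ⟨B3, b3, p3⟩ := bdd fun _ : Unit =>
    (Ell97.UB.sum fun a => ((Ell97.UB.const (2 : ℝ)).smul (hD h2 a)).smul (hA a)).add
      ((Ell97.UB.sum fun a => (hD (hD h2 a) a).add ((hd a).smul (hD h2 a))).smul
        (.const (ContinuousLinearMap.id ℝ V)))
  have n0 : (0 : ℝ) ≤ Fintype.card ι := Nat.cast_nonneg _
  refine ⟨3 * (B1 ^ 2 + B2 ^ 2 * Fintype.card ι + B3 ^ 2), by positivity, fun i x hx z => ?_⟩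
  by_cases hz : z ∈ tsupport (θ i)
  · have e := Wrd81.lap1_smul (F i) (fun a => (hA a).sm i) (h2.sm i) hx z
    have e1 := (norm_smul _ (lap1 (F i) (A i) x z)).trans_le
      (mul_le_mul_of_nonneg_right (p1 () i z) (norm_nonneg _))
    have e2 := (norm_sum_le _ _).trans (Finset.sum_le_sum fun b (_ : b ∈ Finset.univ) =>
      (norm_smul _ (θ i z • (P i).D b x z)).trans_le
        (mul_le_mul_of_nonneg_right (p2 b i z) (norm_nonneg _)))
    have e3 := ContinuousLinearMap.le_of_opNorm_le _ (p3 () i z) (x z)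
    have e4 := sq_sum_le_card_mul_sum_sq (s := Finset.univ) (f := fun b => ‖θ i z • (P i).D b x z‖)
    have e5 := (norm_sub_le _ _).trans (add_le_add ((norm_sub_le _ _).trans (add_le_add e1 e2)) e3)
    rw [← Finset.mul_sum] at e5
    simp only [smul_eq_mul] at e e5
    have e6 := (congrArg norm (e.trans ?_)).trans_le e5
    swap
    · simp only [cov, (hm i).D _ x, D_sq _ (hθ.sm i), add_apply, smul_apply, sum_apply,
        ContinuousLinearMap.id_apply, smul_add, Finset.sum_add_distrib, Finset.smul_sum, smul_smul,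
        Finset.sum_mul, Finset.sum_smul]
      rw [Finset.sum_comm, ← sub_sub, ← sub_sub]
      congr 3
      exact Finset.sum_congr rfl fun _ _ => Finset.sum_congr rfl fun _ _ => by congr 1; ring
    simp only [h1 i z hz, one_smul, Finset.card_univ] at e4 ⊢
    refine (pow_le_pow_left₀ (norm_nonneg _) e6 2).trans ?_
    have q : 0 ≤ ∑ b, ‖θ i z • (P i).D b x z‖ ^ 2 := by positivity
    generalize ∑ b, ‖θ i z • (P i).D b x z‖ ^ 2 = t at *
    generalize ∑ b, ‖θ i z • (P i).D b x z‖ = s at *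
    generalize ‖lap1 (F i) (A i) x z‖ = p
    generalize ‖x z‖ = r
    have q1 := mul_le_mul_of_nonneg_left e4 (sq_nonneg B2)
    have q2 : 0 ≤ B2 ^ 2 * Fintype.card ι := by positivity
    nlinarith [sq_nonneg (B1 * p - B2 * s), sq_nonneg (B1 * p - B3 * r), sq_nonneg (B2 * s - B3 * r),
      mul_nonneg (sq_nonneg B1) q, mul_nonneg (sq_nonneg B3) q, sq_nonneg (B1 * r), sq_nonneg (B3 * p),
      mul_nonneg q2 (sq_nonneg p), mul_nonneg q2 (sq_nonneg r)]
  · have k := fun h => hz (ts_sq (θ i) x h)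
    have k1 := fun a h => k (Wrd81.tsupport_cov (F i).toPre (A i) _ a h)
    have k2 := fun a h => k1 a (Wrd81.tsupport_cov (F i).toPre (A i) _ a h)
    simp only [lap1, image_eq_zero_of_notMem_tsupport k, image_eq_zero_of_notMem_tsupport (k1 _),
      image_eq_zero_of_notMem_tsupport (k2 _), smul_zero, add_zero, Finset.sum_const_zero, sub_zero,
      norm_zero, zero_pow two_ne_zero]
    positivity

/-- the gradient estimate -/
theorem grad {C : ℕ → ℝ} (hP : ∀ i, (P i).Tame C) (hθ : UB (fun i => (P i).toPre) θ)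
    (hθ' : UB (fun i => (P i).toPre) θ') (h1 : ∀ i, ∀ x ∈ tsupport (θ i), θ' i x = 1) {ε : ℝ}
    (hε : 0 < ε) : ∃ C, 0 ≤ C ∧ ∀ i (x : M → V), Sm I x → HasCompactSupport x → ∀ b,
      N2 (P i).toPre 0 (fun z => θ i z • (P i).D b x z) ≤
        ε * N2 (P i).toPre 1 ((P i).D b fun z => (θ i z * θ i z) • x z) +
          C * N2 (P i).toPre 0 fun z => θ' i z • x z := by
  have hd : ∀ a, UB (fun i => (P i).toPre) fun i => (P i).dv a := fun a => ⟨C, fun i => (hP i).dv a⟩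
  have h2 := hθ.smul hθ
  obtain ⟨B1, b1, p1⟩ := bdd hd
  obtain ⟨B2, b2, p2⟩ := bdd fun b => hθ.D b
  obtain ⟨B3, b3, p3⟩ := bdd fun b => ((h2.D b).D b).add ((hd b).smul (h2.D b))
  simp only [smul_eq_mul] at h2 p3
  refine ⟨2 * (ε⁻¹ * (1 + B1 ^ 2) + B3 + 2 * B2 ^ 2), by positivity, fun i x hx hc b => ?_⟩
  have s2 := h2.sm i
  have su : Sm I fun z => (θ i z * θ i z) • x z := s2.smul hx
  have cu : HasCompactSupport fun z => (θ i z * θ i z) • x z := hcs_bil_right (.lsmul ℝ ℝ) _ hc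
  have sD := (P i).sm_D hx b
  have sw : Sm I fun z => (θ i z * θ i z) • (P i).D b x z := s2.smul sD
  have ew : (fun z => (θ i z * θ i z) • (P i).D b x z) = (P i).D b (fun z => (θ i z * θ i z) • x z) -
      fun z => (P i).D b (fun z => θ i z * θ i z) z • x z := funext fun z =>
    eq_sub_of_add_eq' (dv_smul (md s2 z) (md hx z)).symm
  set u := fun z => (θ i z * θ i z) • x z
  have s1 := (P i).sm_D su b
  have c1 := (P i).hcs_D cu b
  have I0 : ∀ {v : M → V}, Sm I v → HasCompactSupport v → Integrable (fun z => ‖v z‖ ^ 2) (P i).μ :=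
    fun hv hc => int_sq (FL_of_hcs (F := (P i).toPre) 0 hv hc)
  have i1 := (I0 s1 c1).const_mul (ε / 2)
  have i2 := (I0 ((P i).sm_D s1 b) ((P i).hcs_D c1 b)).const_mul (ε / 2)
  have i3 := (I0 (v := fun z => θ i z • (P i).D b x z) ((hθ.sm i).smul sD)
    (hcs_bil_right (.lsmul ℝ ℝ) _ ((P i).hcs_D hc b))).const_mul (1 / 2)
  have i4 := (I0 (v := fun z => θ' i z • x z) ((hθ'.sm i).smul hx)
    (hcs_bil_right (.lsmul ℝ ℝ) _ hc)).const_mul (ε⁻¹ * (1 + B1 ^ 2) + B3 + 2 * B2 ^ 2)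
  have k1 : N2 (P i).toPre 0 ((P i).D b u) + N2 (P i).toPre 0 ((P i).D b ((P i).D b u)) ≤
      N2 (P i).toPre 1 ((P i).D b u) := add_le_add le_rfl (Finset.single_le_sum
    (f := fun a => N2 (P i).toPre 0 ((P i).D a ((P i).D b u))) (fun _ _ => n2_nonneg 0 _)
      (Finset.mem_univ b))
  have k2 := integral_mono ((P i).integrable_inner hx.continuous hc (((P i).sm_D sw b).continuous.neg.sub
    (((P i).dv_sm b).continuous.smul sw.continuous))) (((i1.add i2).add i3).add i4) fun z => ?_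
  · have k3 := Ell97.ibp_fun (P i) b hx hc sw
    rw [integral_add' ((i1.add i2).add i3) i4, integral_add' (i1.add i2) i3, integral_add' i1 i2] at k2
    simp only [Pi.sub_apply, Pi.neg_apply, Pi.smul_apply', integral_const_mul, ← k3] at k2
    have k4 : N2 (P i).toPre 0 (fun z => θ i z • (P i).D b x z) =
        ∫ z, ⟪(P i).D b x z, (θ i z * θ i z) • (P i).D b x z⟫_ℝ ∂(P i).μ := by
      simp only [n2, real_inner_smul_right, real_inner_self_eq_norm_sq, norm_smul, mul_pow,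
        Real.norm_eq_abs, sq_abs, sq (θ i _)]
    rw [← k4] at k2
    simp only [n2] at k1 k2 ⊢
    nlinarith
  simp only [Pi.add_apply, Pi.sub_apply, Pi.neg_apply, Pi.smul_apply']
  by_cases hz : z ∈ tsupport (θ i)
  · have sg := (P i).sm_D s2 b
    have e : -(P i).D b (fun z => (θ i z * θ i z) • (P i).D b x z) z -
        (P i).dv b z • (θ i z * θ i z) • (P i).D b x z = -(P i).D b ((P i).D b u) z -
        (P i).dv b z • (P i).D b u z + ((P i).D b ((P i).D b fun z => θ i z * θ i z) z +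
          (P i).dv b z * (P i).D b (fun z => θ i z * θ i z) z) • x z +
        (2 : ℝ) • (P i).D b (θ i) z • θ i z • (P i).D b x z := by
      rw [congrFun ew z, ew, Pre.D_def, dv_sub (md s1 z) (md (Wrd81.sm_smul sg hx) z),
        dv_smul (md sg z) (md hx z)]
      simp only [← Pre.D_def, Pi.sub_apply]
      rw [congrFun (D_sq _ (hθ.sm i) b) z]
      module
    have e1 := (norm_smul _ ((P i).D b u z)).trans_le
      (mul_le_mul_of_nonneg_right (p1 b i z) (norm_nonneg _))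
    have e2 := (norm_smul _ (θ i z • (P i).D b x z)).trans_le
      (mul_le_mul_of_nonneg_right (p2 b i z) (norm_nonneg _))
    have e3 := (norm_smul _ (x z)).trans_le (mul_le_mul_of_nonneg_right (p3 b i z) (norm_nonneg _))
    have e4 := (norm_add_le _ _).trans (add_le_add ((norm_add_le _ _).trans (add_le_add
      ((norm_sub_le _ _).trans (add_le_add (norm_neg ((P i).D b ((P i).D b u) z)).le e1)) e3))
      ((norm_smul (2 : ℝ) _).trans_le (mul_le_mul_of_nonneg_left e2 (norm_nonneg _))))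
    rw [e, h1 i z hz, one_smul]
    refine (real_inner_le_norm _ _).trans ((mul_le_mul_of_nonneg_left e4 (norm_nonneg _)).trans ?_)
    generalize ‖(P i).D b ((P i).D b u) z‖ = p
    generalize ‖(P i).D b u z‖ = q
    generalize ‖θ i z • (P i).D b x z‖ = m
    generalize ‖x z‖ = r
    have q0 := mul_inv_cancel₀ hε.ne'
    have q1 := inv_pos.2 hε
    rw [Real.norm_two]
    generalize ε⁻¹ = δ at *
    have q2 : ∀ a c : ℝ, a * c ≤ ε / 2 * a ^ 2 + δ * c ^ 2 := fun a c => by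
      have : ε / 2 * a ^ 2 + δ * c ^ 2 - a * c = δ / 2 * ((ε * a - c) ^ 2 + c ^ 2) := by
        linear_combination (a * c - ε * a ^ 2 / 2) * q0
      have : 0 ≤ δ / 2 * ((ε * a - c) ^ 2 + c ^ 2) := by positivity
      linarith
    nlinarith [q2 p r, q2 q (B1 * r), sq_nonneg (m - 2 * B2 * r)]
  · have k := fun h => hz (ts_sq (θ i) ((P i).D b x) h)
    rw [Pre.D_def, dv_eq_zero_of_notMem k, image_eq_zero_of_notMem_tsupport k]
    simp only [neg_zero, smul_zero, sub_zero, inner_zero_right]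
    positivity

/-- the a priori estimate -/
theorem apr {C : ℕ → ℝ} {K : ℝ} (hP : ∀ i, (P i).Tame C)
    (hm : ∀ i, Mix (P i).toPre (F i).toPre fun a b => S a b i)
    (hS : ∀ a b, UB (fun i => (P i).toPre) (S a b))
    (hd : ∀ a, UB (fun i => (P i).toPre) fun i => (F i).dv a)
    (hA : ∀ a, UB (fun i => (P i).toPre) fun i => A i a) (hθ : UB (fun i => (P i).toPre) θ)
    (hθ' : UB (fun i => (P i).toPre) θ') (h1 : ∀ i, ∀ x ∈ tsupport (θ i), θ' i x = 1)
    (hK : ∀ i u, ‖u‖ ≤ K * ‖Ql (P i).toPre (F i) (A i) 0 u‖) : ∃ C, 0 ≤ C ∧ ∀ i x,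
      ‖smulH (P i).toPre 2 _ (fun z => θ i z * θ i z) x‖ ^ 2 ≤
        C * (‖smulH (P i).toPre 0 _ (θ' i) (Ql (P i).toPre (F i) (A i) 0 x)‖ ^ 2 +
          ‖smulH (P i).toPre 0 _ (θ' i) (ic (P i).toPre V 2 0 x)‖ ^ 2) := by
  obtain ⟨C1, c1, k1⟩ := eqn hm hS hd hA hθ h1
  obtain ⟨C2, c2, k2⟩ := grad (V := V) hP hθ hθ' h1 (ε := (2 * (K ^ 2 * C1 + 1))⁻¹) (by positivity)
  have n0 : (0 : ℝ) ≤ Fintype.card ι := Nat.cast_nonneg _
  refine ⟨2 * (K ^ 2 * C1) * (Fintype.card ι * C2 + 1), by positivity, fun i x => ?_⟩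
  induction x using H_ind with
  | hP => exact isClosed_le (by fun_prop) (by fun_prop)
  | h x => ?_
  have sA := fun a => (hA a).sm i
  have rQ : (P i).Rep (Ql (P i).toPre (F i) (A i) 0) (lap1 (F i) (A i)) :=
    RepT_congr (rep_QQ (act_mix (hm i) (fun a b => (hS a b).cb i) fun a => (hd a).cb i)
      ⟨fun a => rep_mulH ((hA a).cb i) (Maps.triv _), fun a => rep_mulH ((hA a).cb i) (Maps.triv _)⟩)
      fun u => funext fun _ => (sub_eq_add_neg _ _).symm
  have r2 := rep_smulH (k := 2) (p := triv M V) (f := fun z => θ i z * θ i z) ((hθ.smul hθ).cb i)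
  have k3 := pow_le_pow_left₀ (norm_nonneg _) (hK i ((P i).toH 2 _ ⟨_, RepT_mem r2 x⟩)) 2
  obtain ⟨x, hx, hc, hp⟩ := x
  simp only [RepT_toH rQ, RepT_toH r2, RepT_toH (rep_smulH (hθ'.cb i)), incl_toH (Nat.zero_le _),
    Pre.norm_toH, nrm_sq, mul_pow] at k3 ⊢
  have I0 : ∀ {f : M → ℝ} {v : M → V}, Sm I f → Sm I v → HasCompactSupport v →
      Integrable (fun z => ‖f z • v z‖ ^ 2) (P i).μ := fun hf hv hc =>
    int_sq (FL_of_hcs (F := (P i).toPre) 0 (hf.smul hv) (hcs_bil_right (.lsmul ℝ ℝ) _ hc))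
  have i1 := I0 (hθ'.sm i) (Wrd81.sm_lap1 (F i) sA hx) (Wrd81.hcs_lap1 _ _ hc)
  have i2 := fun b (_ : b ∈ Finset.univ) => I0 (hθ.sm i) ((P i).sm_D hx b) ((P i).hcs_D hc b)
  have i3 := I0 (hθ'.sm i) hx hc
  have k4 := integral_mono_of_nonneg (.of_forall fun _ => sq_nonneg _)
    (((i1.add (integrable_finsetSum _ i2)).add i3).const_mul C1) (.of_forall (k1 i x hx))
  rw [integral_const_mul, integral_add' (i1.add (integrable_finsetSum _ i2)) i3,
    integral_add' i1 (integrable_finsetSum _ i2), integral_finsetSum _ i2] at k4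
  have k5 := Finset.sum_le_sum fun b (_ : b ∈ Finset.univ) => k2 i x hx hc b
  rw [Finset.sum_add_distrib, ← Finset.mul_sum, Finset.sum_const, Finset.card_univ,
    nsmul_eq_mul] at k5
  have k6 : ∑ b, N2 (P i).toPre 1 ((P i).D b fun z => (θ i z * θ i z) • x z) ≤
      N2 (P i).toPre 2 fun z => (θ i z * θ i z) • x z := sum_n2_dv_le 1 _
  have p1 : 0 ≤ N2 (P i).toPre 2 fun z => (θ i z * θ i z) • x z := n2_nonneg _ _
  have p2 : 0 ≤ N2 (P i).toPre 0 fun z => θ' i z • lap1 (F i) (A i) x z := n2_nonneg _ _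
  have k7 := k3.trans (mul_le_mul_of_nonneg_left k4 (sq_nonneg K))
  have k8 := k5.trans (add_le_add (mul_le_mul_of_nonneg_left k6 (by positivity)) le_rfl)
  have q : 0 ≤ K ^ 2 * C1 := by positivity
  rw [← mul_assoc] at k7
  generalize K ^ 2 * C1 = L at *
  have k9 := mul_le_mul_of_nonneg_left k8 q
  have q1 : L * (2 * (L + 1))⁻¹ ≤ 1 / 2 := by
    rw [← div_eq_mul_inv, div_le_iff₀ (by positivity)]; linarith
  have q2 := mul_le_mul_of_nonneg_right q1 p1
  have q3 := mul_nonneg (mul_nonneg q (mul_nonneg n0 c2)) p2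
  simp only [n2] at k7 k9 q2 q3 ⊢
  nlinarith

variable (I M ι) in
/-- **CYS-CAC** -/
theorem cac : CacStmt I M ι := by
  intro V J _ _ _ P F C A S θ θ' K hP hm hS hd hA hθ hθ' h1 hK
  obtain ⟨C, c0, h⟩ := apr hP hm hS hd hA hθ hθ' h1 hK
  choose Γ h2 h3 using fun i => ext
    ((smulH (P i).toPre 2 (triv M V) fun z => θ i z * θ i z).toLinearMap.domRestrict
      (smulH (P i).toPre 0 _ (θ' i) ∘L Ql (P i).toPre (F i) (A i) 0).ker)
    ((smulH (P i).toPre 0 _ (θ' i) ∘L ic (P i).toPre V 2 0).toLinearMap.domRestrict _)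
    (Real.sqrt_nonneg C) fun x => by
      have := h i x.1
      rw [show smulH (P i).toPre 0 _ (θ' i) (Ql (P i).toPre (F i) (A i) 0 x.1) = 0 from x.2,
        norm_zero, zero_pow two_ne_zero, zero_add (M := ℝ)] at this
      refine abs_le_of_sq_le_sq' ?_ (by positivity) |>.2
      rw [mul_pow, Real.sq_sqrt c0]
      exact this
  exact ⟨Γ, ⟨_, h2⟩, fun i x hx => h3 i ⟨x, hx⟩⟩

end Crest.Agent.X212.Cac9
end
end

-- ▼ part X212/Eng12/Main
section

/-!
# Row 212, CYS-ENG (helper12): the engine on the Hilbert fibre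
-/

set_option autoImplicit false
set_option linter.unusedSectionVars false
set_option maxSynthPendingDepth 3
noncomputable section
open scoped Manifold ContDiff Topology InnerProductSpace
open MeasureTheory Set Function Filter

namespace Crest.Agent.X212.Eng12
open An Sob92 Prm93 Wz78 Mon62 Mon62.Dm Cyc79 Ten12
open Ell97 (UB)

variable {E : Type} [NormedAddCommGroup E] [NormedSpace ℝ E] [FiniteDimensional ℝ E]
  [MeasurableSpace E] [BorelSpace E]
  {HM : Type} [TopologicalSpace HM] {I : ModelWithCorners ℝ E HM} [I.Boundaryless]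
  {M : Type} [TopologicalSpace M] [ChartedSpace HM M] [IsManifold I ∞ M]
  [MeasurableSpace M] [T2Space M] [BorelSpace M] [SecondCountableTopology M] {ι : Type} [Fintype ι]
  {J : Type} {X Y : J → Type} [∀ i, NormedAddCommGroup (X i)] [∀ i, NormedSpace ℝ (X i)]
  {V : Type} [NormedAddCommGroup V] [InnerProductSpace ℝ V] [CompleteSpace V]
  {κ K : Type} [Fintype κ] [DecidableEq κ]
  [NormedAddCommGroup K] [InnerProductSpace ℝ K] [CompleteSpace K]
  {D : Dm I M ι X Y} {G : ∀ i, X i → Fr I M ι} {ε : Prop} {j l : ℕ}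

/-- the resolvent on the Hilbert fibre from the resolvent on the finite one -/
theorem exists_res_amp {P : Pre I M ι} {F : Fr I M ι} {A : ι → M → En κ}
    (hB : Mp86.Bumps I F.e F.dv) (hA : Mp86.Mc I A)
    (hE : ∀ s : M → Eu κ, P.Cb s → ∃ u, F.IsRes A s u ∧ P.Cb u) {s : M → Fm κ K} (hs : P.Cb s) :
    F.IsRes (aA K A) s (F.res (aA K A) s) ∧ P.Cb (F.res (aA K A) s) ∧
      ∀ h z, ct h (F.res (aA K A) s z) = F.res A (fun x => ct h (s x)) z := by
  have e := fun h : K => hE _ (Cb_clm (ct h) hs)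
  have e' := fun h : K => (e h).imp fun _ h => h.1
  obtain ⟨C, hC⟩ := cb_bdd hs
  let φ : M → K →L[ℝ] Eu κ := fun z => LinearMap.mkContinuous
    { toFun := fun h => F.res A (fun x => ct h (s x)) z
      map_add' := fun h h' => by
        rw [← congrFun (Mp86.res_add hB hA (e' h) (e' h')) z]
        exact congrArg (F.res A · z) (funext fun x => congrArg (· (s x)) ((ctL κ K).map_add h h'))
      map_smul' := fun a h => by
        rw [RingHom.id_apply, ← congrFun (Mp86.res_smul hB hA a _) z]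
        exact congrArg (F.res A · z) (funext fun x => congrArg (· (s x)) ((ctL κ K).map_smul a h)) }
    C fun h => Mp86.norm_res_le hB hA (fun x => (norm_ct_le h _).trans
      ((mul_le_mul_of_nonneg_left (hC x) (norm_nonneg h)).trans_eq (mul_comm _ _))) z
  have hφ : ∀ h, (fun z => ct h (rz κ K (φ z))) = F.res A fun x => ct h (s x) := fun h =>
    funext fun z => ct_rz _ h
  have hc : P.Cb fun z => rz κ K (φ z) := cb_of_ct fun h => by
    obtain ⟨u, h1, h2⟩ := e h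
    rwa [hφ, Mp86.res_eq hB hA h1]
  have hr : F.IsRes (aA K A) s fun z => rz κ K (φ z) :=
    isRes_of_ct hA.sm (cb_sm hc) (cb_bdd hc) fun h => hφ h ▸ Mp86.res_spec (e' h)
  rw [Mp86.res_eq (A := aA K A) hB ⟨sm_aA hA.sm, fun a x => skew_amp (hA.sk a x)⟩ hr]
  exact ⟨hr, hc, fun h z => congrFun (hφ h) z⟩

theorem sz_res_amp (hF : D.FF G) (hE : D.RE (Eu κ) G) (hI : Cys97.Inv D G)
    {A : ∀ i, Y i → ι → M → En κ} (hA : ∀ c, D.Sz fun i y => A i y c)
    (hs : ∀ i y c x, Skew (A i y c x)) {s : ∀ i, Y i → M → Fm κ K} (h : D.Sz s) :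
    (D.Sz fun i y => (G i (D.pt i y)).res (aA K (A i y)) (s i y)) ∧
      ∀ i y, (G i (D.pt i y)).IsRes (aA K (A i y)) (s i y)
        ((G i (D.pt i y)).res (aA K (A i y)) (s i y)) := by
  have r := fun i y => exists_res_amp (hF.bump i y) ⟨fun c => (hA c).sm i y, hs i y⟩
    (fun t => hE.ex i y (A i y) t (fun c => (hA c).cb i y) (hs i y)) (h.cb i y)
  refine ⟨⟨fun i y => (r i y).2.1, ?_⟩, fun i y => (r i y).1⟩
  obtain ⟨S, hS, hm⟩ := hF.mix
  obtain ⟨S', hS', h'⟩ := hI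
  have z := fun a b => ((hS a b).a0 4 le_rfl).sz
  have up : ∀ {N : Type} [NormedAddCommGroup N] [NormedSpace ℝ N] {f : J → M → N}, UB D.P f →
      UB (fun i => (G i (D.pt i (D.y₀ i))).toPre) f :=
    ub_mix (fun i => hm i _ (D.mem i _)) fun a b => (z a b).ub
  exact ub_mix (fun i => h' i _) (fun a b => up (hS' a b).ub) (ub_isRes
    (fun a b l => up ((hF.c a b l).a0 4 le_rfl).sz.ub) (fun a => up ((hF.dv a).a0 4 le_rfl).sz.ub)
    (fun i => hF.bump i _) (fun a => up ((hA a).ub.clm (amp K)))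
    (fun i a x => skew_amp (hs i _ a x)) (up h.ub) (fun i => (r i _).1)
    fun i => (hm i _ (D.mem i _)).Cb (fun a b => (z a b).cb i _) (r i _).2.1)

/-- the amplified resolvent operator -/
theorem exists_inv_amp (hF : D.FF G) (hB : D.RB (Eu κ) G) (hl : 4 ≤ l)
    {A : ∀ i, Y i → ι → M → En κ} (hA : ∀ c, D.Mul (l + 1) fun i y => A i y c)
    (hs : ∀ i y c x, Skew (A i y c x)) :
    ∃ R : ∀ i, X i → D.H (Fm κ K) l i →L[ℝ] D.H (Fm κ K) (l + 2) i, UC D.toRg R ∧ ∀ i y f x,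
      D.vl (R i (D.pt i y) f) x + lap I (G i (D.pt i y)).e (G i (D.pt i y)).dv (aA K (A i y))
        (D.vl (R i (D.pt i y) f)) x = D.vl f x := by
  obtain ⟨R, r1, r2⟩ := exists_inv hF hB hl hA hs
  refine ⟨fun i x => lft K (R i x), r1.clm ⟨1, fun _ => norm_lft⟩, fun i y f x => ?_⟩
  obtain ⟨S, s1, s2⟩ := hF.mix
  have hx := D.mem i y
  have q := fun {V : Type} [NormedAddCommGroup V] [InnerProductSpace ℝ V] [CompleteSpace V]
      {A : ι → M → V →L[ℝ] V} => val_QQ (A := A) (D.sup i) (s2 i _ hx) (fun a b => (s1 a b).us.cb i _ hx)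
      (fun c => (hF.dv c).us.cb i _ hx) hl
  have c := fun c => (hA c).sz.cb i y
  have e := lft_QQ (K := K) (act_mix (V := Eu κ) (s2 i _ hx) (fun a b => (s1 a b).us.cb i _ hx)
    fun c => (hF.dv c).us.cb i _ hx) (fun c => (D.P i).mulH l _ _ (A i y c),
      fun c => (D.P i).mulH (l + 1) _ _ (A i y c))
  have e' : lM K (fun c => (D.P i).mulH l _ _ (A i y c), fun c => (D.P i).mulH (l + 1) _ _ (A i y c))
      = (fun c => (D.P i).mulH l _ _ (aA K (A i y) c),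
        fun c => (D.P i).mulH (l + 1) _ _ (aA K (A i y) c)) :=
    Prod.ext (funext fun a => lft_mulH (c a)) (funext fun a => lft_mulH (c a))
  rw [vl, ← q (A := aA K (A i y)) (fun a => Cb_clm (amp K) (c a)), ← e', ← e]
  refine congrArg (fun u => (D.P i).val l _ u x) (ext_ctH fun h => ?_)
  rw [ctH_lft, ctH_lft]
  exact val_injective (D.sup i) hl (funext fun z => (q c _ z).trans (r2 i y _ z))

/-- the resolvent gains two derivatives: the abstract form -/
theorem res_of (hF : D.FF G) (hl : 4 ≤ l) {A : ∀ i, Y i → ι → M → V →L[ℝ] V}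
    (hA : ∀ c, D.Mul (l + 1) fun i y => A i y c) (hs : ∀ i y c x, Skew (A i y c x))
    {s : ∀ i, Y i → M → V} (h : D.A0 ε l s)
    (z1 : D.Sz fun i y => (G i (D.pt i y)).res (A i y) (s i y))
    (z2 : ∀ i y, (G i (D.pt i y)).IsRes (A i y) (s i y) ((G i (D.pt i y)).res (A i y) (s i y)))
    {R : ∀ i, X i → D.H V l i →L[ℝ] D.H V (l + 2) i} (r1 : UC D.toRg R) (r2 : ∀ i y f x,
      D.vl (R i (D.pt i y) f) x + lap I (G i (D.pt i y)).e (G i (D.pt i y)).dv (A i y)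
        (D.vl (R i (D.pt i y) f)) x = D.vl f x) :
    D.A0 ε (l + 2) fun i y => (G i (D.pt i y)).res (A i y) (s i y) := by
  have key : ∀ u : J → M → V, UB D.P u → (ε → ∀ i x, u i x = 0) → (D.A0 True l fun i y x =>
      s i y x - (u i x + lap I (G i (D.pt i y)).e (G i (D.pt i y)).dv (A i y) (u i) x)) →
      D.A0 ε (l + 2) fun i y => (G i (D.pt i y)).res (A i y) (s i y) := by
    intro u hu h0 hp
    obtain ⟨δ, d1, d2⟩ := hp.pure
    refine ⟨z1, u, _, hu, h0, r1.app d1, fun i y x => ?_⟩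
    obtain ⟨e1, ⟨C, e2⟩, e3⟩ := z2 i y
    obtain ⟨C', hu⟩ := hu
    have mc := Mp86.Mc.mc (⟨fun c => (hA c).sz.sm i y, hs i y⟩ : Mp86.Mc I (A i y))
    have vf := Mp86.vf (G i (D.pt i y)).toPre
    refine eq_add_of_sub_eq' (Mp86.eq_of_bdd (hF.bump i y) finite_empty (fun h => absurd h
      not_nonempty_empty) (C := C + C' 0 + √|D.C 0| * ‖R i (D.pt i y) (δ i (D.pt i y))‖)
      (u := fun x => (G i (D.pt i y)).res (A i y) (s i y) x - u i x) vf
      (fun _ h => h.elim) (fun _ h => h.elim) (fun x _ => mc x)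
      (fun x _ => Mp86.cm2 (e1.sub (hu i).1) x)
      (fun x _ => contMDiff_val (n := 2) (D.sup i) (by omega) _ x) (fun x _ => ?_)
      (fun x _ => ?_) x (notMem_empty x))
    · exact (norm_sub_le _ _).trans (add_le_add ((norm_sub_le _ _).trans (add_le_add (e2 x)
        (CB_bound ((hu i).2 0) x))) (norm_val_le (D.sup i) (by omega) _ x))
    · rw [Mp86.LA_sub (vf x) (mc x).sm (Mp86.cm2 e1 x) (Mp86.cm2 (hu i).1 x), Mp86.LA_eq_lap,
        Mp86.LA_eq_lap, Mp86.LA_eq_lap, sub_neg_eq_add _ (lap _ _ _ _ (Pre.val _ _ _ _) _),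
        r2, ← congrFun (d2 i y) x, ← e3 x]
      abel
  by_cases e : ε
  · refine key (fun _ _ => 0) (UB.const 0) (fun _ _ _ => rfl) ((h.imp fun _ => e).congr
      fun i y x => ?_)
    rw [show (fun _ => 0 : M → V) = 0 from rfl, Mp86.lap_zero, add_zero, sub_zero]
  · have h1 := A0.fixed (j := l + 2) z1.ub
    refine key _ z1.ub (fun h => absurd h e) ((h.aff.sub hl ((h1.lower hl (by omega)).add
      (h1.lap hF hl hA))).pure_of_base (A0.zero.congr fun i _ x => ?_))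
    exact sub_eq_zero.2 ((z2 i _).2.2 x).symm

theorem mul_of {A : ∀ i, Y i → M → En κ} (hj : 7 ≤ j)
    (h : D.A0 ε j fun i y x => hsL (A i y x)) : D.Mul j A := by
  simpa only [opL_hsL] using h.toMul opL hj

theorem mul_amp {A : ∀ i, Y i → M → En κ} (hj : 7 ≤ j)
    (h : D.A0 ε j fun i y x => hsL (A i y x)) : D.Mul j fun i y x => amp K (A i y x) := by
  simpa only [ContinuousLinearMap.comp_apply, opL_hsL] using h.toMul (amp K ∘L opL) hj

/-- **The amplified resolvent gains two derivatives.** -/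
theorem res_amp (hF : D.FF G) (hB : D.RB (Eu κ) G) (hE : D.RE (Eu κ) G) (hI : Cys97.Inv D G)
    (hl : 6 ≤ l) {A : ∀ i, Y i → ι → M → En κ}
    (hA : ∀ c, D.A0 False (l + 1) fun i y x => hsL (A i y c x))
    (hs : ∀ i y c x, Skew (A i y c x)) {s : ∀ i, Y i → M → Fm κ K} (h : D.A0 ε l s) :
    D.A0 ε (l + 2) fun i y => (G i (D.pt i y)).res (aA K (A i y)) (s i y) := by
  have m := fun c => mul_of (by omega) (hA c)
  obtain ⟨z1, z2⟩ := sz_res_amp hF hE hI (fun c => (m c).sz) hs h.sz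
  obtain ⟨R, r1, r2⟩ := exists_inv_amp (K := K) hF hB (by omega) m hs
  exact res_of hF (by omega) (fun c => mul_amp (by omega) (hA c))
    (fun i y c x => skew_amp (hs i y c x)) h z1 z2 r1 r2

variable (I M ι) in
/-- **CYS-ENG** -/
theorem eng : Cys97.EngStmt I M ι := by
  intro κ K J _ _ _ _ _ X Y _ _ D G A j hj hF hB hE hI hA hs
  refine ⟨hj, fun h => ?_, fun h => h.nab hF (by omega) fun c => mul_amp (by omega) (hA c)⟩
  obtain ⟨l, rfl⟩ : ∃ l, j = l + 1 := ⟨j - 1, by omega⟩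
  exact res_amp hF hB hE hI (by omega) hA hs (h.lower (by omega) l.le_succ)

end Crest.Agent.X212.Eng12
end
end

-- ▼ part X212/Hd34/Ev
section

/-!
# Row 212, CYC-SM (helper34): the leaf EV
-/

set_option autoImplicit false
set_option linter.unusedSectionVars false
set_option maxSynthPendingDepth 3
noncomputable section
open scoped Manifold ContDiff Topology InnerProductSpace BoundedContinuousFunction
open MeasureTheory Set Function Filter

namespace Crest.Agent.X212.Hd34.Ev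
open An Sob92 Mon62 Ten12

variable {E : Type} [NormedAddCommGroup E] [NormedSpace ℝ E] [FiniteDimensional ℝ E]
  [MeasurableSpace E] [BorelSpace E]
  {HM : Type} [TopologicalSpace HM] {I : ModelWithCorners ℝ E HM} [I.Boundaryless]
  {M : Type} [TopologicalSpace M] [ChartedSpace HM M] [IsManifold I ∞ M]
  [MeasurableSpace M] [T2Space M] [BorelSpace M] [SecondCountableTopology M] {ι : Type} [Fintype ι]
  {κ : Type} [Fintype κ] {U W Z K : Type}
  [NormedAddCommGroup U] [InnerProductSpace ℝ U] [CompleteSpace U]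
  [NormedAddCommGroup W] [InnerProductSpace ℝ W] [CompleteSpace W]
  [NormedAddCommGroup Z] [NormedSpace ℝ Z]
  [NormedAddCommGroup K] [InnerProductSpace ℝ K] [CompleteSpace K]

theorem norm_sq_is {F : Pre I M ι} {h : HT F W 0} {u : M → W} (H : Is F 0 _ h u) :
    ‖h‖ ^ 2 = ∫ z, ‖u z‖ ^ 2 ∂F.μ := by
  rw [← incl_self h, H.norm_zero, Pre.nrm, Real.sq_sqrt (F.ip_nonneg 0 u), Pre.ip]
  simp only [real_inner_self_eq_norm_sq]

theorem int_sq {F : Pre I M ι} {h : HT F W 0} {u : M → W} (H : Is F 0 _ h u) :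
    Integrable (fun z => ‖u z‖ ^ 2) F.μ := (memLp_two_iff_integrable_sq_norm H.memLp.1).1 H.memLp

/-- Bessel for an operator with values in a finite dimensional space -/
theorem bessel (L : K →L[ℝ] Eu κ) {s : Set K} (hs : Orthonormal ℝ ((↑) : s → K)) (t : Finset s) :
    ∑ n ∈ t, ‖L n‖ ^ 2 ≤ Fintype.card κ * ‖L‖ ^ 2 := by
  simp only [EuclideanSpace.norm_sq_eq]
  rw [Finset.sum_comm, ← Finset.card_univ, ← nsmul_eq_mul, ← Finset.sum_const]
  refine Finset.sum_le_sum fun i _ => ?_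
  obtain ⟨v, hv⟩ := (InnerProductSpace.toDual ℝ K).surjective (EuclideanSpace.proj i ∘L L)
  have h1 : ∀ n : K, L n i = ⟪n, v⟫_ℝ := fun n => by
    rw [real_inner_comm, ← InnerProductSpace.toDual_apply_apply, hv]; rfl
  have h2 : ‖v‖ ≤ ‖L‖ := by
    rw [← (InnerProductSpace.toDual ℝ K).norm_map, hv]
    exact ContinuousLinearMap.opNorm_le_bound _ (norm_nonneg _) fun n =>
      (PiLp.norm_apply_le (L n) i).trans (L.le_opNorm n)
  simp only [h1]
  exact (hs.sum_inner_products_le v).trans (pow_le_pow_left₀ (norm_nonneg _) h2 2)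

theorem exists_mul (P : Fr I M ι) (β : U →L[ℝ] Z →L[ℝ] W) :
    ∃ m : HT P.toPre U 0 →L[ℝ] (M →ᵇ Z) →L[ℝ] HT P.toPre W 0,
      ∀ a b, Is P.toPre 0 _ (m a b) fun z => β (P.toL2 0 _ a z) (b z) := by
  have bd : ∀ (a : HT P.toPre U 0) (b : M →ᵇ Z) z,
      ‖β (P.toL2 0 _ a z) (b z)‖ ≤ ‖β‖ * ‖b‖ * ‖P.toL2 0 _ a z‖ := fun a b z =>
    (β.le_opNorm₂ _ _).trans (by
      rw [mul_right_comm]
      exact mul_le_mul_of_nonneg_right
        (mul_le_mul_of_nonneg_left (b.norm_coe_le_norm z) (norm_nonneg _)) (norm_nonneg _))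
  have h : ∀ (a : HT P.toPre U 0) (b : M →ᵇ Z), ∃ g : HT P.toPre W 0,
      Is P.toPre 0 _ g fun z => β (P.toL2 0 _ a z) (b z) := fun a b =>
    exists_Is_zero (Cb_const _) (fun _ _ => rfl) ((Lp.memLp (P.toL2 0 _ a)).of_le_mul
      (β.aestronglyMeasurable_comp₂ (Lp.aestronglyMeasurable _) b.continuous.aestronglyMeasurable)
      (Eventually.of_forall (bd a b))) (Eventually.of_forall fun _ => rfl)
  choose m hm using h
  have r : ∀ a : HT P.toPre U 0, Is P.toPre 0 _ a (P.toL2 0 _ a) := fun a => EventuallyEq.rfl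
  refine ⟨LinearMap.mkContinuous₂ (LinearMap.mk₂ ℝ m (fun a a' b => ?_) (fun c a b => ?_)
    (fun a b b' => ?_) fun c a b => ?_) ‖β‖ fun a b => ?_, hm⟩
  · refine (hm _ _).unique (((hm a b).add (hm a' b)).congr ?_)
    filter_upwards [(r a).add (r a')] with z hz
    rw [hz]; simp only [Pi.add_apply, map_add, add_apply]
  · refine (hm _ _).unique (((hm a b).smul c).congr ?_)
    filter_upwards [(r a).smul c] with z hz
    rw [hz]; simp only [Pi.smul_apply, map_smul, smul_apply]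
  · exact (hm _ _).unique (((hm a b).add (hm a b')).congr (Eventually.of_forall fun z => by simp))
  · exact (hm _ _).unique (((hm a b).smul c).congr (Eventually.of_forall fun z => by simp))
  · rw [LinearMap.mk₂_apply, ← sq_le_sq₀ (norm_nonneg _) (by positivity), norm_sq_is (hm a b),
      mul_right_comm, mul_pow, norm_sq_is (r a), ← integral_const_mul]
    refine integral_mono (int_sq (hm a b)) ((int_sq (r a)).const_mul _) fun z => ?_
    rw [← mul_pow]
    exact pow_le_pow_left₀ (norm_nonneg _) (bd a b z) 2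

/-- **EV** -/
theorem evStmt : Cys97.EvStmt I M ι := fun κ κ' U K _ _ _ _ _ _ _ _ _ _ P β => by
  obtain ⟨m, hm⟩ := exists_mul P β
  have r : ∀ a : HT P.toPre U 0, Is P.toPre 0 _ a (P.toL2 0 _ a) := fun a => EventuallyEq.rfl
  have h : ∀ (a : HT P.toPre U 0) (Λ : K →L[ℝ] (M →ᵇ Eu κ)), ∃ u : HT P.toPre (Fm κ' K) 0,
      (∀ h, ctH κ' K P.toPre 0 h u = m a (Λ h)) ∧
        ‖u‖ ≤ √(Fintype.card κ) * ‖β‖ * ‖a‖ * ‖Λ‖ := fun a Λ => by
    refine (ten κ' K P.toPre 0).exists_of_bd (m a ∘L Λ) (by positivity) fun s hs t => ?_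
    simp only [ContinuousLinearMap.comp_apply, fun n : s => norm_sq_is (hm a (Λ n))]
    rw [← integral_finsetSum t fun (n : s) _ => int_sq (hm a (Λ n)), mul_right_comm, mul_pow,
      norm_sq_is (r a), ← integral_const_mul]
    refine integral_mono (integrable_finsetSum _ fun n _ => int_sq (hm a (Λ n)))
      ((int_sq (r a)).const_mul _) fun z => ?_
    have h1 := bessel (BoundedContinuousFunction.evalCLM ℝ z ∘L Λ) hs t
    have h2 : ‖BoundedContinuousFunction.evalCLM ℝ z ∘L Λ‖ ≤ ‖Λ‖ :=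
      ContinuousLinearMap.opNorm_le_bound _ (norm_nonneg _) fun n =>
        ((Λ n).norm_coe_le_norm z).trans (Λ.le_opNorm n)
    calc ∑ n ∈ t, ‖β (P.toL2 0 _ a z) (Λ n z)‖ ^ 2
        ≤ ∑ n ∈ t, (‖β‖ * ‖P.toL2 0 _ a z‖) ^ 2 * ‖Λ n z‖ ^ 2 := Finset.sum_le_sum fun n _ => by
          rw [← mul_pow]
          exact pow_le_pow_left₀ (norm_nonneg _) (β.le_opNorm₂ _ _) 2
      _ ≤ (‖β‖ * ‖P.toL2 0 _ a z‖) ^ 2 * (Fintype.card κ * ‖Λ‖ ^ 2) := by
          rw [← Finset.mul_sum]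
          exact mul_le_mul_of_nonneg_left (h1.trans (mul_le_mul_of_nonneg_left
            (pow_le_pow_left₀ (norm_nonneg _) h2 2) (Nat.cast_nonneg _))) (sq_nonneg _)
      _ = _ := by
          simp only [mul_pow, Real.sq_sqrt (Nat.cast_nonneg (Fintype.card κ))]
          ring
  choose e he hn using h
  refine ⟨LinearMap.mkContinuous₂ (LinearMap.mk₂ ℝ e (fun a a' b => ext_ctH fun k => ?_)
    (fun c a b => ext_ctH fun k => ?_) (fun a b b' => ext_ctH fun k => ?_)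
    fun c a b => ext_ctH fun k => ?_) _ hn,
    LinearMap.mkContinuous₂_norm_le _ (by positivity) _, fun a Λ h α H => ?_⟩
  · simp [he]
  · simp [he]
  · simp [he]
  · simp [he]
  · show Is _ _ _ (ctH κ' K P.toPre 0 h (e a Λ)) _
    rw [he]
    refine (hm a (Λ h)).congr ?_
    filter_upwards [H] with z hz
    rw [hz]

end Crest.Agent.X212.Hd34.Ev
end
end

-- ▼ part X212/Hd34/Dn
section

/-!
# Row 212, CYC-SM (helper34): the leaf DN
-/

set_option autoImplicit false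
set_option linter.unusedSectionVars false
set_option maxSynthPendingDepth 3
noncomputable section
open scoped Manifold ContDiff Topology InnerProductSpace
open MeasureTheory Set Function Filter

namespace Crest.Agent.X212.Hd34.Dn
open An Sob92 Prm93 Wz78 Mon62 Cys97
open Ell97 (UB)

variable {E : Type} [NormedAddCommGroup E] [NormedSpace ℝ E] [FiniteDimensional ℝ E]
  [MeasurableSpace E] [BorelSpace E]
  {HM : Type} [TopologicalSpace HM] {I : ModelWithCorners ℝ E HM} [I.Boundaryless]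
  {M : Type} [TopologicalSpace M] [ChartedSpace HM M] [IsManifold I ∞ M]
  [MeasurableSpace M] [T2Space M] [BorelSpace M] [SecondCountableTopology M] {ι : Type} [Fintype ι]
  {κ : Type} [Fintype κ] [DecidableEq κ] {N : Type} [NormedAddCommGroup N] [NormedSpace ℝ N]

/-- zero or a derivative -/
def Dp (P : Pre I M ι) : Option ι → (M → N) → M → N
  | none => fun _ _ => 0
  | some b => P.D b

theorem sm_Do (P : Pre I M ι) (s : Option ι) {u : M → N} (hu : Sm I u) : Sm I (Do P s u) := by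
  cases s
  exacts [hu, P.sm_D hu _]

theorem Do_sum (P : Pre I M ι) (s : Option ι) {σ : Option ι → M → HS κ} (hσ : ∀ t, Sm I (σ t))
    {w : Option ι → M → Eu κ} (hw : ∀ t, Sm I (w t)) (x : M) :
    Do P s (fun y => ∑ t, opL (σ t y) (w t y)) x =
      ∑ t, (opL (σ t x) (Do P s (w t) x) + opL (Dp P s (σ t) x) (w t x)) := by
  cases s with
  | none => simp [Do, Dp]
  | some b =>
    refine (dv_sum _ fun t _ => (((opL.contMDiff.comp (hσ t)).clm_apply (hw t)).mdifferentiableAt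
      (by simp))).trans (Finset.sum_congr rfl fun t _ => ?_)
    exact (dv_bil opL ((hσ t).mdifferentiableAt (by simp)) ((hw t).mdifferentiableAt (by simp))).trans
      (add_comm _ _)

theorem opL_mlL (S T : HS κ) (v : Eu κ) : opL (mlL S T) v = opL S (opL T v) := by simp [mlL]

theorem alg (a : ι → Option ι → Option ι → HS κ) (b : ι → Option ι → HS κ)
    (w : Option ι → Option ι → Eu κ) :
    ∑ p : Option ι × Option ι, opL (-∑ c, (a c p.1 p.2 + p.1.elim (b c p.2) fun _ => 0)) (w p.1 p.2) =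
      -∑ c, (∑ s, ∑ t, opL (a c s t) (w s t) + ∑ t, opL (b c t) (w none t)) := by
  rw [Fintype.sum_prod_type]
  simp only [map_neg, map_sum, map_add, ContinuousLinearMap.neg_apply,
    ContinuousLinearMap.sum_apply, ContinuousLinearMap.add_apply, Finset.sum_neg_distrib,
    Finset.sum_add_distrib]
  congr 2
  · exact (Finset.sum_congr rfl fun s _ => Finset.sum_comm).trans Finset.sum_comm
  · rw [Fintype.sum_option, Finset.sum_comm]
    simp

theorem lap_eq (P : Pre I M ι) {e : ι → (x : M) → TangentSpace I x} {A : ι → M → En κ}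
    (g : ι → M → ℝ) {σ : ι → Option ι → M → HS κ} (hσ : ∀ c t, Sm I (σ c t))
    (h : ∀ c u, nab I e A c u = fun x => ∑ t, opL (σ c t x) (Do P t u x)) {u : M → Eu κ}
    (hu : Sm I u) (x : M) : lap I e g A u x = ∑ p : Option ι × Option ι,
      opL (-∑ c, (mlL (σ c p.1 x) (σ c p.2 x) + p.1.elim
        (∑ s, mlL (σ c s x) (Dp P s (σ c p.2) x) + g c x • σ c p.2 x) fun _ => 0))
        (Do P p.1 (Do P p.2 u) x) := by
  rw [alg (fun c s t => mlL (σ c s x) (σ c t x))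
    (fun c t => ∑ s, mlL (σ c s x) (Dp P s (σ c t) x) + g c x • σ c t x)
    fun s t => Do P s (Do P t u) x, lap]
  refine congrArg Neg.neg (Finset.sum_congr rfl fun c _ => ?_)
  simp only [h, Do_sum P _ (hσ c) fun t => sm_Do P t hu, map_sum, map_add, map_smul, opL_mlL,
    ContinuousLinearMap.sum_apply, ContinuousLinearMap.add_apply, ContinuousLinearMap.smul_apply,
    Finset.sum_add_distrib, Finset.smul_sum, add_assoc]
  rw [Finset.sum_comm (f := fun s t => opL (σ c s x) (opL (Dp P s (σ c t) x) (Do P t u x)))]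
  rfl

/-- **DN** -/
theorem dnStmt : DnStmt I M ι := fun κ J _ _ X Y _ _ D G A j hj hF hA => by
  obtain ⟨S, h1, h2⟩ := hF.mix
  let σ : ι → Option ι → ∀ i, Y i → M → HS κ := fun c s i y x =>
    s.elim (hsL (A i y c x)) fun b => S c b i (D.pt i y) x • hsL 1
  have a8 : ∀ c s, D.A0 False 8 (σ c s) := fun c s => by
    cases s with
    | none => exact (hA c).lower (by omega) hj
    | some b => exact (h1 c b).smul (by omega) (Dm.A0.fixed (UB.const _))
  have a4 : ∀ c s, D.A0 False 4 (σ c s) := fun c s => (a8 c s).lower le_rfl (by omega)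
  have d4 : ∀ c s t, D.A0 False 4 fun i y => Dp (D.P i) s (σ c t i y) := fun c s t => by
    cases s with
    | none => exact Dm.A0.zero
    | some b => exact ((a8 c t).lower (l := 5) (by omega) (by omega)).dD le_rfl b
  have L : Lev 8 4 4 := Lev.left (by omega) (by omega)
  refine ⟨fun p i y x => -∑ c, (mlL (σ c p.1 i y x) (σ c p.2 i y x) + p.1.elim
      (∑ s, mlL (σ c s i y x) (Dp (D.P i) s (σ c p.2 i y) x) +
        (G i (D.pt i y)).dv c x • σ c p.2 i y x) fun _ => 0), fun ⟨s, t⟩ => ?_,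
    fun i y u hu x => lap_eq (D.P i) _ (σ := fun c s => σ c s i y)
      (fun c t => (a8 c t).sz.sm i y) (fun c u => funext fun x => ?_) hu x⟩
  · refine (Dm.A0.fsum _ fun c _ => ((a8 c s).bil mlL L le_rfl (a4 c t)).aff.add ?_).neg le_rfl
    cases s with
    | none =>
      exact (Dm.A0.fsum _ fun s _ => ((a8 c s).bil mlL L le_rfl (d4 c s t)).aff).add
        ((hF.dv c).smul le_rfl (a4 c t))
    | some b => exact Dm.A0.zero
  · rw [Fintype.sum_option, add_comm]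
    refine congrArg₂ (· + ·) ((congrFun ((h2 i _ (D.mem i y)).D c u) x).trans ?_) ?_
    · simp [σ, Do]
    · simp [σ, Do]

end Crest.Agent.X212.Hd34.Dn
end
end

-- ▼ part X212/Hd34/Fin
section

/-!
# Row 212, CYC-SM (helper34): the leaf FIN
-/

set_option autoImplicit false
set_option linter.unusedSectionVars false
set_option maxSynthPendingDepth 3
noncomputable section
open scoped Manifold ContDiff Topology InnerProductSpace
open MeasureTheory Set Function Filter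

namespace Crest.Agent.X212.Hd34.Fin
open An Sob92 Prm93 Wz78 Mon62 Cyc79 Cys97 Dgr80
open Wrd81 (wd)

variable {E : Type} [NormedAddCommGroup E] [NormedSpace ℝ E] [FiniteDimensional ℝ E]
  [MeasurableSpace E] [BorelSpace E]
  {HM : Type} [TopologicalSpace HM] {I : ModelWithCorners ℝ E HM} [I.Boundaryless]
  {M : Type} [TopologicalSpace M] [ChartedSpace HM M] [IsManifold I ∞ M]
  [MeasurableSpace M] [T2Space M] [BorelSpace M] [SecondCountableTopology M] {ι : Type} [Fintype ι]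
  {lam : Type} [Fintype lam] {κ : Type} [Fintype κ] [DecidableEq κ] {K K' W : Type}
  [NormedAddCommGroup K] [InnerProductSpace ℝ K] [CompleteSpace K]
  [NormedAddCommGroup K'] [InnerProductSpace ℝ K'] [CompleteSpace K']
  [NormedAddCommGroup W] [InnerProductSpace ℝ W] [CompleteSpace W]

section fib
variable (F : Fr I M ι) (A : ι → M → En κ) (r : CL W (En κ))

/-- words on the fibre `Fm κ K` -/
def wK (s : M → Fm κ K) (w : List (La M)) : M → Fm κ K := wd (sl F (aA K A)) s (w.map (laV _))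

/-- `gc` on the fibre `Fm κ K` -/
def gK (s : M → Fm κ K) (w : List (La M)) (l : M → Fm κ K) : M → Fm ι W :=
  gc F (aA K A) (amp K ∘L r) s (w.map (laV _)) l

/-- `gh` on the fibre `Fm κ K` -/
def hK (b b' : M → Fm κ K) (x x' w w' : List (La M)) (ξ : M → W) (z : M) : Fm ι W :=
  gK F A r b' (w ++ x) (fun y => (amp K ∘L r) (ξ y) (wK F A b' (w' ++ x) y)) z +
    gK F A r b x' (bk F (aA K A) ((w ++ x).map (laV _)) fun y =>
      (amp K ∘L r) (ξ y) (wK F A b w' y)) z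

variable {F A} {R : K →L[ℝ] K'} (hR : ∀ h h', ⟪R h, R h'⟫_ℝ = ⟪h, h'⟫_ℝ) (hA : Ok F A)
  {S T : K →L[ℝ] KK F.toPre κ} {s l : M → Fm κ K} {w : List (La M)}
include hR

theorem tp_fb (a b : Fm κ K) : tp (amp K' ∘L r) (fb R a) (fb R b) = tp (amp K ∘L r) a b :=
  ext_inner_right ℝ fun ξ => by
    simp only [inner_tp, ContinuousLinearMap.comp_apply, ← fb_amp, PiLp.inner_apply, fb_apply, hR]

include hA

theorem gK_fb (hs : FI F S s) (hw : ∀ t ∈ w, La.OK F t) : ∀ {T l}, FI F T l →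
    gK F A r (fun z => fb R (s z)) w (fun z => fb R (l z)) = gK F A r s w l := by
  induction w with
  | nil => exact fun _ => rfl
  | cons t w ih =>
    intro T l hl
    have hw' : ∀ u ∈ w, La.OK F u := fun u hu => hw u (by simp [hu])
    have ht := hw t (by simp)
    have h1 := ih hw' (hl.la hA ht)
    have g : ∀ {T l} {t : La M}, FI F T l → La.OK F t → sl F (aA K' A) (laV _ t)
        (fun z => fb R (l z)) = fun z => fb R (sl F (aA K A) (laV _ t) l z) := fun hl ht =>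
      hl.wd_fb hA (w := [_]) (by simpa using ht) R
    rw [← g hl ht, ← slT_laV, ← slT_laV] at h1
    cases t with
    | mul f => exact h1
    | G =>
      have h2 := hs.wd hA hw'
      have e1 : F.res _ _ = _ := g (t := .G) hl trivial
      have e2 : F.res _ _ = _ := g (t := .G) h2 trivial
      funext x
      refine congrArg₂ (· - ·) (congrFun h1 x) ?_
      rw [hs.wd_fb hA hw', e1, e2]
      simp only [cur, fb_nab (hl.la hA ht).sm, fb_nab (h2.la hA ht).sm, tp_fb r hR]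
      rfl

theorem hK_fb {x x' w' : List (La M)} {ξ : M → W} (hs : FI F S s) (hl : FI F T l)
    (hx : ∀ t ∈ x, La.OK F t) (hx' : ∀ t ∈ x', La.OK F t) (hw : ∀ t ∈ w, La.OK F t)
    (hw' : ∀ t ∈ w', La.OK F t) (hξ : F.Cb ξ) (z : M) :
    hK F A r (fun z => fb R (s z)) (fun z => fb R (l z)) x x' w w' ξ z =
      hK F A r s l x x' w w' ξ z := by
  have a : ∀ {w}, (∀ t ∈ w, La.OK F t) → ∀ t ∈ w ++ x, La.OK F t := fun hw t ht =>
    (List.mem_append.1 ht).elim (hw t) (hx t)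
  have b : ∀ t ∈ (w ++ x).reverse, La.OK F t := fun t ht => a hw t (List.mem_reverse.1 ht)
  have h1 := (hl.wd hA (a hw')).op (Cb_clm r hξ)
  have h2 := (hs.wd hA hw').op (Cb_clm r hξ)
  simp only [hK, wK, bk_laV, hl.wd_fb hA (a hw'), hs.wd_fb hA hw', ContinuousLinearMap.comp_apply,
    ← fb_amp, h2.wd_fb hA b, gK_fb r hR hA hl (a hw) h1, gK_fb r hR hA hs hx' (h2.wd hA b)]

end fib

variable {J : Type} {X Y : J → Type} [∀ i, NormedAddCommGroup (X i)] [∀ i, NormedSpace ℝ (X i)]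
  {D : Dm I M ι X Y} {G : ∀ i, X i → Fr I M ι} {j : ℕ} {w : ∀ i, Y i → List (La M)}

theorem cbG {N : Type} [NormedAddCommGroup N] [NormedSpace ℝ N] (hF : D.FF G) (i : J) (y : Y i)
    {f : M → N} (hf : (D.P i).Cb f) : (G i (D.pt i y)).Cb f :=
  let ⟨_, h1, h2⟩ := hF.mix
  (h2 i _ (D.mem i y)).Cb (fun a b => (h1 a b).us.cb i _ (D.mem i y)) hf

theorem laOK (hF : D.FF G) (hw : Fa (D.LaY j) w) (i : J) (y : Y i) :
    ∀ t ∈ w i y, La.OK (G i (D.pt i y)) t := by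
  induction hw with
  | nil => simp
  | cons ht _ ih =>
    refine List.forall_mem_cons.2 ⟨?_, ih⟩
    cases ht with
    | mul hf => exact cbG hF i y (hf.sz.cb i y)
    | G => trivial

theorem slk (hj : 7 ≤ j) (hw : Fa (D.LaY j) w) :
    Fa (D.SLk (V := Fm κ K) j) fun i y => (w i y).map (laV _) :=
  hw.map (f := fun _ _ => laV _) fun t ht => by
    cases ht with
    | mul hf => exact .smul hj hf
    | G => exact .inr rfl

theorem a0_hK {A : ∀ i, Y i → ι → M → En κ} (h : D.Eng G j fun i y => aA K (A i y))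
    (r : CL W (En κ)) {b b' : ∀ i, Y i → M → Fm κ K} (hb : D.A0 False j b) (hb' : D.A0 False j b')
    {x x' w' : ∀ i, Y i → List (La M)} (hx : Fa (D.LaY j) x) (hx' : Fa (D.LaY j) x')
    (hw : Fa (D.LaY j) w) (hw' : Fa (D.LaY j) w') {ε : Prop} {ξ : ∀ i, Y i → M → W}
    (hξ : D.A0 ε j ξ) : D.A0 ε j fun i y =>
      hK (G i (D.pt i y)) (A i y) r (b i y) (b' i y) (x i y) (x' i y) (w i y) (w' i y) (ξ i y) := by
  have h7 : 7 ≤ j := h.hj.trans' (by omega)
  have m : ∀ {u : ∀ i, Y i → M → Fm κ K}, D.A0 False j u →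
      D.A0 ε j fun i y z => (amp K ∘L r) (ξ i y z) (u i y z) := fun hu =>
    (hξ.bil (amp K ∘L r) (Lev.self h7) (by omega) hu).imp Or.inl
  exact (h.gc _ hb' (slk h7 (hw.append hx)) (m (h.wd (slk h7 (hw'.append hx)) hb'))).add
    (h.gc _ hb (slk h7 hx') (h.bk (slk h7 (hw.append hx)) (m (h.wd (slk h7 hw') hb))))

theorem sA_eq {r : ℕ} (d : Cy M) (F : Fr I M ι) (c : Cfg M ι lam r) (l : M → c.m.A) (z : M) :
    (d.sed F).sA c l z =
      hK F (c.m.adW c.W) (adR _) (bs F (c.m.adW c.W) c.m.pg d.f d.f') (bs F (c.m.adW c.W) c.m.pg d.f' d.f)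
        (xw d.f d.f') (xw d.f' d.f) d.w' d.w (fun x => c.m.pg x (l x)) z -
      hK F (c.m.adW c.W) (adR _) (bs F (c.m.adW c.W) c.m.pg d.f d.f') (bs F (c.m.adW c.W) c.m.pg d.f' d.f)
        (xw d.f d.f') (xw d.f' d.f) d.w d.w' (fun x => c.m.pg x (l x)) z := rfl

/-- **FIN** -/
theorem finStmt : FinStmt I M ι lam := by
  intro K J _ _ _ X Y _ _ D μ r κ ε j f f' w w' U h hA hs hw hw' hU hE hb hb'
  have x1 : Fa (D.LaY j) fun i y => xw (f i y) (f' i y) :=
    .cons (.mul hs.l) (.cons .G (.cons (.mul hs.r) .nil))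
  have x2 : Fa (D.LaY j) fun i y => xw (f' i y) (f i y) :=
    .cons (.mul hs.r) (.cons .G (.cons (.mul hs.l) .nil))
  have pg := fun i y => cbG h.F i y (h.pg.cb i)
  have sep : ∀ i y, Sep (κ.F i y).toPre (f i y) (f' i y) := fun i y =>
    let ⟨φ, p1, p2⟩ := hs.ex
    ⟨cbG h.F i y (hs.l.sz.cb i y), cbG h.F i y (hs.r.sz.cb i y), φ i, cbG h.F i y (p1.cb i),
      fun x => (p2 i y x).1, fun x => (p2 i y x).2⟩
  have f1 := fun i y => fi_bs (hA i y) (sep i y) (pg i y)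
  have f2 := fun i y => fi_bs (hA i y) (sep i y).symm (pg i y)
  have ok := fun {w} (hw : Fa (D.LaY j) w) => laOK h.F hw
  refine ⟨?_, fun ε l hl => ?_, fun _ _ _ => Dm.A0.zero⟩
  · refine ((((hE.wd (slk h.h7 (hw.append x1)) hb').tp (amp K ∘L adR _) h.h7
      (hE.wd (slk h.h7 (hw'.append x1)) hb')).app h.h4 h.pg).aff).congr fun i y z => ?_
    rw [(f2 i y).wd_fb (hA i y) (ok (hw.append x1) i y),
      (f2 i y).wd_fb (hA i y) (ok (hw'.append x1) i y), tp_fb _ (hU i y)]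
    rfl
  · have hξ := hl.app h.h4 h.pg
    have e := fun {w w'} (hw : Fa (D.LaY j) w) (hw' : Fa (D.LaY j) w') =>
      (a0_hK hE (adR _) hb hb' x1 x2 hw hw' hξ).congr fun i y z =>
        (hK_fb (adR _) (hU i y) (hA i y) (f1 i y) (f2 i y) (ok x1 i y) (ok x2 i y) (ok hw i y)
          (ok hw' i y) (cbG h.F i y (hξ.sz.cb i y)) z).symm
    exact ((e hw' hw).sub h.h4 (e hw hw')).congr fun i y z => sA_eq _ _ (κ.c i y) _ z

end Crest.Agent.X212.Hd34.Fin
end
end

-- ▼ part X212/Cys97/Main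

/-!
# Row 212, CYC-SM (helper97): the cyclic seeds depend smoothly on the parameter
-/

set_option autoImplicit false
set_option linter.unusedSectionVars false
set_option maxSynthPendingDepth 3
noncomputable section
open scoped Manifold ContDiff Topology InnerProductSpace BoundedContinuousFunction
open MeasureTheory Set Function Filter Real

namespace Crest.Agent.X212.Cys97
open An Sob92 Prm93 Wz78 Mon62 Cyc79 Ten12 Dm
open Ell97 (UB)
open Nk89 (WtP wm integral_wm)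
open ContinuousLinearMap (adjoint)
open Hd34.Fin (cbG)

variable {E : Type} [NormedAddCommGroup E] [NormedSpace ℝ E] [FiniteDimensional ℝ E]
  [MeasurableSpace E] [BorelSpace E]
  {HM : Type} [TopologicalSpace HM] {I : ModelWithCorners ℝ E HM} [I.Boundaryless]
  {M : Type} [TopologicalSpace M] [ChartedSpace HM M] [IsManifold I ∞ M]
  [MeasurableSpace M] [T2Space M] [BorelSpace M] [SecondCountableTopology M] {ι : Type} [Fintype ι]
  {lam : Type} [Fintype lam] {κ : Type} [Fintype κ] [DecidableEq κ]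
  {V : Type} [NormedAddCommGroup V] [InnerProductSpace ℝ V] [CompleteSpace V]
  {K : Type} [NormedAddCommGroup K] [InnerProductSpace ℝ K] [CompleteSpace K]

theorem adj_iso {e : V →L[ℝ] K} (h : ∀ a b, ⟪e a, e b⟫_ℝ = ⟪a, b⟫_ℝ) (a : V) : adjoint e (e a) = a :=
  ext_inner_left ℝ fun b => by rw [ContinuousLinearMap.adjoint_inner_right, h]

theorem norm_adj_iso {e : V →L[ℝ] K} (h : ∀ a b, ⟪e a, e b⟫_ℝ = ⟪a, b⟫_ℝ) : ‖adjoint e‖ ≤ 1 :=
  (LinearIsometryEquiv.norm_map _ _).trans_le (e.opNorm_le_bound zero_le_one fun a => by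
    rw [one_mul, norm_eq_sqrt_real_inner, h, ← norm_eq_sqrt_real_inner])

section one
variable {P F : Fr I M ι} {ℓ : M → ℝ} (hℓ : Sm I ℓ) (hμ : F.μ = wm P.μ ℓ)
include hℓ hμ

theorem ip_wm (u v : M → V) :
    F.ip 0 u v = P.ip 0 (fun x => exp (ℓ x) • u x) fun x => exp (ℓ x) • v x := by
  simp only [Pre.ip, hμ, integral_wm hℓ.continuous, real_inner_smul_left, real_inner_smul_right,
    smul_eq_mul]
  congr 1; funext x; rw [← mul_assoc, ← exp_add, two_mul]

theorem rep_ew0 : F.RepT P.toPre (ew V P F ℓ) fun u z => exp (ℓ z) • u z :=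
  (rep_liftT (C := 1) (fun u hu => (sS (Nk89.sm_exp hℓ) ⟨u, hu⟩).2)
    (fun u _ v _ => funext fun x => by simp) (fun c u _ => funext fun x => by
      simp [smul_comm c]) zero_le_one fun u _ => by
        rw [one_mul, Pre.nrm, Pre.nrm, ip_wm hℓ hμ]).1

theorem inner_ew0 (x y : HT F.toPre V 0) : ⟪ew V P F ℓ x, ew V P F ℓ y⟫_ℝ = ⟪x, y⟫_ℝ := by
  induction x, y using H_ind₂ with
  | hP => exact isClosed_eq (by fun_prop) (by fun_prop)
  | h u v =>
    rw [RepT_toH (rep_ew0 hℓ hμ), RepT_toH (rep_ew0 hℓ hμ), Pre.inner_toH, Pre.inner_toH,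
      ip_wm hℓ hμ]

theorem adj_ew0 (s : Sec I (triv M V)) :
    adjoint (ew V P F ℓ) (P.toH 0 _ s) = F.toH 0 _ (sS (sm_inv hℓ) s) := by
  rw [← RepT_toH' (rep_ew0 hℓ hμ) (sS (sm_inv hℓ) s) s (funext fun z => by
    simp [sS, smul_smul]), adj_iso (inner_ew0 hℓ hμ)]

end one

variable {J : Type} {X Y : J → Type} [∀ i, NormedAddCommGroup (X i)] [∀ i, NormedSpace ℝ (X i)]
  {D : Dm I M ι X Y} {G : ∀ i, X i → Fr I M ι} {A : ∀ i, Y i → ι → M → En κ} {j : ℕ}
  {f f' : ∀ i, Y i → M → ℝ}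

theorem SepY.symm (h : SepY D j f f') : SepY D j f' f :=
  let ⟨_, a, b⟩ := h.ex
  ⟨h.r, h.l, _, (UB.const 1).sub a, fun i y x => ⟨fun e => by linarith [(b i y x).2 e],
    fun e => by linarith [(b i y x).1 e]⟩⟩

/-- **the transported base fields** -/
theorem a0_bs (hj : 8 ≤ j) (mo : Mo D G A j) (ff : D.FF G) (u : Uw (Eu κ) D G)
    (ok : ∀ i y, Ok (G i (D.pt i y)) (A i y)) {p : J → M → En κ} (hp : UB D.P p)
    {e : ∀ i, u.Du.H (Eu κ) 0 i →L[ℝ] K} (he : ∀ i a b, ⟪e i a, e i b⟫_ℝ = ⟪a, b⟫_ℝ)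
    (hs : SepY D j f f') : D.A0 False j fun i y z =>
      fb (e i ∘L ew _ (u.F i) (G i (D.pt i y)) (u.ℓ i (D.pt i y)))
        (bs (G i (D.pt i y)) (A i y) (p i) (f i y) (f' i y) z) := by
  obtain ⟨φ, p1, p2⟩ := hs.ex
  obtain ⟨S, s1, s2⟩ := u.inv
  have h4 : 4 ≤ j := by omega
  have h7 : 7 ≤ j := by omega
  have hg := (A0.smul (Lev.self h7) h4 (((u.lc.a0 j h4).comp hj (h := fun r => exp (-r))
    (by fun_prop)).mul h7 hs.r) (A0.fixed (hp.clm hsL))).aff
  have st : St A u j _ (fun i => adjoint (e i)) φ := ⟨hj, mo, ff, fun i => ok i _, hg,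
    ⟨1, fun i => norm_adj_iso (he i)⟩, p1, fun i y z h => (p2 i y z).2 fun h' => h (by simp [h']),
    fun i => (((u.F i).dense_toH 0 _).preimage ((adjoint (e i)).isOpenMap fun a =>
      ⟨_, adj_iso (he i) a⟩)).mono fun k h => h.imp fun _ => Eq.symm⟩
  have sep : ∀ {θ : J → M → ℝ} {t : ℝ}, 0 < t → UB D.P θ → (∀ i z, φ i z < t → θ i z = 0) →
      ∀ i y, Sep (G i (D.pt i y)).toPre (θ i) (f' i y) := fun ht hθ e0 i y =>
    sep_cut (cbG ff i y (hs.r.sz.cb i y)) (cbG ff i y (p1.cb i)) (fun x => (p2 i y x).2)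
      (cbG ff i y (hθ.cb i)) ht (e0 i)
  have fl : ∀ {θ : J → M → ℝ} {t : ℝ}, 0 < t → UB D.P θ → (∀ i z, φ i z < t → θ i z = 0) →
      Fl A (fun i y x => (exp (-u.ℓ i (D.pt i y) x) * f' i y x) • hsL (p i x))
        (fun i => adjoint (e i)) θ fun i y z =>
        fb (e i ∘L ew _ (u.F i) (G i (D.pt i y)) (u.ℓ i (D.pt i y)))
          (bs (G i (D.pt i y)) (A i y) (p i) (θ i) (f' i y) z) := fun ht hθ e0 i y => by
    have c := cbG ff i y (hp.cb i)
    refine ⟨(s2 i y).Cb (fun a b => cbG ff i y ((s1 a b).cb i y))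
      (Cb_clm _ (fi_bs (ok i y) (sep ht hθ e0 i y) c).cb), fun k s h z => ?_⟩
    rw [ct_fb', ContinuousLinearMap.adjoint_comp, ContinuousLinearMap.comp_apply, h,
      adj_ew0 (u.lc.us.sz.sm i y) (u.μ i y), ct_bs (ok i y) (sep ht hθ e0 i y) c, uu]
    simp only [sS, map_smul, smul_apply, opL_hsL, smul_smul, exp_neg, mul_comm]
  obtain ⟨χ, c1, c2, c3, -⟩ := exists_ucut p1 one_half_lt_one
  have c4 := fun i z (h : φ i z < 1 / 2) => c2 i z h.le
  refine (A0.smul (Lev.self h7) h4 hs.l (st.base (fun a b c => ⟨_, fl a b c⟩) (Cac9.cac I M ι)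
    Hd34.Ev.evStmt Hd34.Dn.dnStmt one_half_pos c1 c4 (fl one_half_pos c1 c4))).aff.congr
      fun i y z => ?_
  rw [← map_smul, ← bs_mul (ok i y) (sep one_half_pos c1 c4 i y) (cbG ff i y (hp.cb i))
    ⟨cbG ff i y (hs.l.sz.cb i y), cbG ff i y (hs.r.sz.cb i y), φ i, cbG ff i y (p1.cb i),
      fun x => (p2 i y x).1, fun x => (p2 i y x).2⟩ fun x => ?_]
  by_cases h : f i y x = 0
  · rw [h, zero_mul]
  · rw [c3 i x ((p2 i y x).1 h), mul_one]

variable (I M ι lam) in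
/-- **CYC-SM** -/
theorem sm : SmStmt I M ι lam := by
  classical
  intro J X Y _ _ D μ r κ ε j f f' w w' h ⟨u⟩ hp hs hw hw'
  have a0 : ∀ c, D.A0 False j fun i y x => hsL (μ.adW i (κ.W i y) c x) := fun c =>
    ((h.W c).clm h.h4 (hsL ∘L adcL ∘L opL)).congr fun i y x => by
      simp only [ContinuousLinearMap.comp_apply, opL_hsL]; rfl
  have sk : ∀ i y c x, Skew (μ.adW i (κ.W i y) c x) := fun i y c x => adc_skw (h.sk i y c x)
  have mo : Mo D κ.G (fun i y => μ.adW i (κ.W i y)) j :=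
    let ⟨S, a, b⟩ := h.F.mix
    ⟨h.h7, ⟨S, fun c d => (a c d).us, b⟩, fun c => (h.F.dv c).us, h.F.bump, u.ra, a0, sk⟩
  have ok : ∀ i y, Ok (κ.F i y) (μ.adW i (κ.W i y)) := fun i y =>
    ⟨u.tm i y, fun c => cbG h.F i y ((mo.sz c).cb i y), sk i y, fun a x => by
      simp only [Md.adW, ← adcL_apply, ← map_smul, ← map_sum, hp]⟩
  let e := fun i => lp.singleContinuousLinearMap ℝ (fun i => u.Du.H μ.A 0 i) 2 i
  have he : ∀ i a b, ⟪e i a, e i b⟫_ℝ = ⟪a, b⟫_ℝ := fun i a b => by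
    simp only [e, lp.singleContinuousLinearMap_apply, lp.inner_single_left, lp.single_apply_self]
  exact Hd34.Fin.finStmt _ J X Y D μ r κ ε j f f' w w' _ h ok hs hw hw'
    (fun i y a b => (he i _ _).trans (inner_ew0 (u.lc.us.sz.sm i y) (u.μ i y) a b))
    (Eng12.eng I M ι _ _ J X Y D κ.G _ j h.hj h.F h.bA h.eA u.inv a0 sk)
    (a0_bs h.hj mo h.F u ok h.pg he hs) (a0_bs h.hj mo h.F u ok h.pg he hs.symm)

end Crest.Agent.X212.Cys97
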